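import Vale.Agent.P363.Tool.Sobolev.Approx

/-!
P363: the Sobolev, Hardy and Poincaré inequalities and local compactness in `H¹(ℝ³)`.
-/

noncomputable section

namespace Vale.Agent.P363

open MeasureTheory Filter Metric
open scoped BigOperators Topology ENNReal NNReal

variable {f : Space → ℝ} {g : Fin 3 → Space → ℝ}

/-- The gradients of the approximating bumps converge in mean square on every set. -/
lemma tendsto_gradSum {μ : Measure Space} (hμ : μ ≤ volume) (h : IsH1 f g)
    {η : ℕ → Space → ℝ} (hη : ∀ k, IsBump Set.univ (η k))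
    (hd : ∀ a, Tendsto (fun k => ∫ x, (deriv3 a (η k) x - g a x) ^ 2) atTop (𝓝 0)) :
    Tendsto (fun k => ∫ x, gradSum (η k) x ∂μ) atTop (𝓝 (∑ a, ∫ x, g a x ^ 2 ∂μ)) := by
  have hm : ∀ k a, MemLp (deriv3 a (η k)) 2 := fun k a =>
    ((hη k).deriv a).continuous.memLp_of_hasCompactSupport ((hη k).deriv a).compact
  have e : ∀ k, ∫ x, gradSum (η k) x ∂μ = ∑ a, ∫ x, deriv3 a (η k) x ^ 2 ∂μ := fun k =>
    integral_finsetSum _ fun a _ => ((hm k a).mono_measure hμ).integrable_sq
  simp only [e]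
  refine tendsto_finsetSum _ fun a _ => tendsto_sq_of_sub
    (fun k => (hm k a).mono_measure hμ) ((h.grad_memLp a).mono_measure hμ) ?_
  exact squeeze_zero (fun k => integral_nonneg fun x => sq_nonneg _) (fun k =>
    integral_mono_measure hμ (Eventually.of_forall fun x => sq_nonneg _)
      ((hm k a).sub (h.grad_memLp a)).integrable_sq) (hd a)

theorem sobolev_six : SobolevSixStmt := by
  obtain ⟨K, hK⟩ := six_smooth
  refine ⟨(K : ℝ) ^ 2 + 1, by positivity, fun f g h => ?_⟩
  obtain ⟨η, hη, hf, hd⟩ := exists_bumps h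
  have hη2 : ∀ k, MemLp (η k) 2 := fun k =>
    (hη k).continuous.memLp_of_hasCompactSupport (hη k).compact
  have hmeas : TendstoInMeasure volume η atTop f := by
    refine tendstoInMeasure_of_tendsto_eLpNorm two_ne_zero (fun k => (hη2 k).1) h.memLp.1 ?_
    have h' := (Lp.tendsto_Lp_iff_tendsto_eLpNorm'' η hη2 f h.memLp).1
      (tendsto_toLp_two hη2 h.memLp hf)
    exact h'
  obtain ⟨φ, hφ, hae⟩ := hmeas.exists_seq_tendsto_ae
  set D := dirichlet g with hD
  have hD0 : 0 ≤ D := Finset.sum_nonneg fun a _ => integral_nonneg fun x => sq_nonneg _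
  have hlim : Tendsto (fun k => (K : ℝ≥0∞) * ENNReal.ofReal (Real.sqrt (∫ x, gradSum (η (φ k)) x)))
      atTop (𝓝 (K * ENNReal.ofReal (Real.sqrt D))) := by
    refine ENNReal.Tendsto.const_mul (ENNReal.tendsto_ofReal (Tendsto.sqrt ?_))
      (Or.inr ENNReal.coe_ne_top)
    exact (tendsto_gradSum le_rfl h hη hd).comp hφ.tendsto_atTop
  have hle : eLpNorm f 6 ≤ K * ENNReal.ofReal (Real.sqrt D) := by
    refine (Lp.eLpNorm_lim_le_liminf_eLpNorm (fun k => (hη2 (φ k)).1) f hae).trans ?_
    refine (liminf_le_liminf (Eventually.of_forall fun k => ?_)).trans_eq hlim.liminf_eq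
    exact hK _ ((hη _).smooth.of_le (by simp)) (hη _).compact
  have h6 : MemLp f 6 :=
    ⟨h.memLp.1, hle.trans_lt (ENNReal.mul_lt_top ENNReal.coe_lt_top ENNReal.ofReal_lt_top)⟩
  refine ⟨h6, ?_⟩
  set I := ∫ x, |f x| ^ 6
  have hI : 0 ≤ I := integral_nonneg fun x => by positivity
  have e : eLpNorm f 6 = ENNReal.ofReal (I ^ ((1 : ℝ) / 6)) := by
    rw [h6.eLpNorm_eq_integral_rpow_norm (by norm_num) ENNReal.ofNat_ne_top]
    simp only [ENNReal.toReal_ofNat, Real.norm_eq_abs, one_div]
    rw [show (fun x => |f x| ^ (6 : ℝ)) = fun x => |f x| ^ 6 from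
      funext fun x => Real.rpow_natCast _ 6]
  rw [e, ← ENNReal.ofReal_coe_nnreal, ← ENNReal.ofReal_mul K.coe_nonneg,
    ENNReal.ofReal_le_ofReal_iff (by positivity)] at hle
  calc I ^ ((1 : ℝ) / 3) = (I ^ ((1 : ℝ) / 6)) ^ 2 := by
        rw [← Real.rpow_natCast (I ^ _) 2, ← Real.rpow_mul hI]; norm_num
    _ ≤ ((K : ℝ) * Real.sqrt D) ^ 2 := pow_le_pow_left₀ (by positivity) hle 2
    _ ≤ ((K : ℝ) ^ 2 + 1) * D := by
        rw [mul_pow, Real.sq_sqrt hD0]; exact mul_le_mul_of_nonneg_right (by simp) hD0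

theorem hardy : HardyStmt := by
  intro f g h c
  obtain ⟨η, hη, hf, hd⟩ := exists_bumps h
  have hη2 : ∀ k, MemLp (η k) 2 := fun k =>
    (hη k).continuous.memLp_of_hasCompactSupport (hη k).compact
  set D := dirichlet g
  have hD0 : 0 ≤ D := Finset.sum_nonneg fun a _ => integral_nonneg fun x => sq_nonneg _
  have hεb : ∀ ε : ℝ, 0 < ε → Integrable (fun x => f x ^ 2 * (‖x - c‖ ^ 2 + ε)⁻¹) ∧
      ∫ x, f x ^ 2 * (‖x - c‖ ^ 2 + ε)⁻¹ ≤ 4 * D := by
    intro ε hε
    set w : Space → ℝ := fun x => Real.sqrt (‖x - c‖ ^ 2 + ε)⁻¹ with hw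
    have hwc : Continuous w := ((((continuous_id.sub continuous_const).norm.pow 2).add
      continuous_const).inv₀ fun x => ne_of_gt (add_pos_of_nonneg_of_pos (sq_nonneg _) hε)).sqrt
    have hwb : ∀ x, ‖w x‖ ≤ Real.sqrt ε⁻¹ := fun x => by
      rw [Real.norm_eq_abs, abs_of_nonneg (Real.sqrt_nonneg _)]
      exact Real.sqrt_le_sqrt (inv_anti₀ hε (le_add_of_nonneg_left (sq_nonneg _)))
    have hmul : ∀ {u : Space → ℝ}, MemLp u 2 → MemLp (fun x => u x * w x) 2 := fun {u} hu =>
      (hu.const_mul (Real.sqrt ε⁻¹)).mono (hu.1.mul hwc.aestronglyMeasurable)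
        (Eventually.of_forall fun x => by
          rw [norm_mul, norm_mul, Real.norm_of_nonneg (Real.sqrt_nonneg ε⁻¹), mul_comm (Real.sqrt ε⁻¹)]
          exact mul_le_mul_of_nonneg_left (hwb x) (norm_nonneg _))
    have e : ∀ u : Space → ℝ, (fun x => (u x * w x) ^ 2) =
        fun x => u x ^ 2 * (‖x - c‖ ^ 2 + ε)⁻¹ := fun u => funext fun x => by
      rw [mul_pow, hw, Real.sq_sqrt (by positivity)]
    have hlim := tendsto_sq_of_sub (fun k => hmul (hη2 k)) (hmul h.memLp) (by
      refine squeeze_zero (fun k => integral_nonneg fun x => sq_nonneg _) (fun k => ?_)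
        (by simpa using hf.const_mul ε⁻¹)
      rw [← integral_const_mul]
      refine integral_mono ((hmul (hη2 k)).sub (hmul h.memLp)).integrable_sq
        ((((hη2 k).sub h.memLp).integrable_sq).const_mul _) fun x => ?_
      simp only [← sub_mul, mul_pow]
      rw [mul_comm ε⁻¹]
      refine mul_le_mul_of_nonneg_left ?_ (sq_nonneg _)
      rw [hw, Real.sq_sqrt (by positivity)]
      exact inv_anti₀ hε (le_add_of_nonneg_left (sq_nonneg _)))
    simp only [e] at hlim
    refine ⟨e f ▸ (hmul h.memLp).integrable_sq, ?_⟩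
    exact le_of_tendsto_of_tendsto' hlim ((tendsto_gradSum le_rfl h hη hd).const_mul 4) fun k =>
      hardy_smooth ((hη k).smooth.of_le (by simp)) (hη k).compact c hε
  set F : ℕ → Space → ℝ≥0∞ :=
    fun n x => ENNReal.ofReal (f x ^ 2 * (‖x - c‖ ^ 2 + 1 / ((n : ℝ) + 1))⁻¹)
  have hFm : ∀ n, AEMeasurable (F n) volume := fun n =>
    (hεb _ (by positivity)).1.1.aemeasurable.ennreal_ofReal
  have hae : ∀ᵐ x, ENNReal.ofReal (f x ^ 2 / ‖x - c‖ ^ 2) = liminf (fun n => F n x) atTop := by
    filter_upwards [Measure.ae_ne volume c] with x hx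
    refine (Tendsto.liminf_eq (ENNReal.tendsto_ofReal ?_)).symm
    have hx' : ‖x - c‖ ^ 2 ≠ 0 := by simp [sub_eq_zero, hx]
    have := ((tendsto_one_div_add_atTop_nhds_zero_nat : Tendsto (fun n : ℕ => 1 / ((n : ℝ) + 1))
      atTop (𝓝 0)).const_add (‖x - c‖ ^ 2)).inv₀ (by simpa using hx')
    simpa [div_eq_mul_inv] using this.const_mul (f x ^ 2)
  have hlint : ∫⁻ x, ENNReal.ofReal (f x ^ 2 / ‖x - c‖ ^ 2) ≤ ENNReal.ofReal (4 * D) := by
    rw [lintegral_congr_ae hae]
    refine (lintegral_liminf_le' hFm).trans (liminf_le_of_frequently_le'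
      (Frequently.of_forall fun n => ?_))
    obtain ⟨hi, hb⟩ := hεb (1 / ((n : ℝ) + 1)) (by positivity)
    rw [← ofReal_integral_eq_lintegral_ofReal hi
      (Eventually.of_forall fun x => by positivity)]
    exact ENNReal.ofReal_le_ofReal hb
  have hnn : 0 ≤ᵐ[volume] fun x => f x ^ 2 / ‖x - c‖ ^ 2 :=
    Eventually.of_forall fun x => by positivity
  have hsm : AEStronglyMeasurable (fun x => f x ^ 2 / ‖x - c‖ ^ 2) volume :=
    (((h.memLp.1.aemeasurable).pow_const 2).div (by fun_prop)).aestronglyMeasurable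
  refine ⟨⟨hsm, ?_⟩, ?_⟩
  · rw [hasFiniteIntegral_iff_ofReal hnn]
    exact hlint.trans_lt ENNReal.ofReal_lt_top
  · rw [integral_eq_lintegral_of_nonneg_ae hnn hsm]
    exact ENNReal.toReal_le_of_le_ofReal (by positivity) hlint

theorem ball_poincare : BallPoincareStmt := by
  refine ⟨16, by norm_num, fun f g h c ρ hρ => ?_⟩
  obtain ⟨η, hη, hf, hd⟩ := exists_bumps h
  set B := ball c ρ
  set ν := (volume : Measure Space).restrict B
  have : IsFiniteMeasure ν := ⟨by simpa [ν] using measure_ball_lt_top⟩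
  have hν : ν ≤ volume := Measure.restrict_le_self
  have hη2 : ∀ k, MemLp (η k) 2 ν := fun k =>
    ((hη k).continuous.memLp_of_hasCompactSupport (hη k).compact).mono_measure hν
  have hf2 : MemLp f 2 ν := h.memLp.mono_measure hν
  have hfB : Tendsto (fun k => ∫ x, (η k x - f x) ^ 2 ∂ν) atTop (𝓝 0) :=
    squeeze_zero (fun k => integral_nonneg fun x => sq_nonneg _) (fun k =>
      integral_mono_measure hν (Eventually.of_forall fun x => sq_nonneg _)
        (((hη k).continuous.memLp_of_hasCompactSupport (hη k).compact).sub h.memLp).integrable_sq)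
      hf
  set m : ℕ → ℝ := fun k => ⨍ y, η k y ∂ν
  set m₀ : ℝ := ⨍ y, f y ∂ν
  have hmean : ∀ k, ν.real Set.univ * (m k - m₀) ^ 2 ≤ ∫ x, (η k x - f x) ^ 2 ∂ν := by
    intro k
    have h1 := CompactAux.sq_integral_le (u := fun x => η k x - f x) ((hη2 k).sub hf2)
    simp only [Real.norm_eq_abs, sq_abs] at h1
    rw [integral_sub ((hη2 k).integrable (by norm_num)) (hf2.integrable (by norm_num))] at h1
    simp only [m, m₀, average_eq, smul_eq_mul, ← mul_sub]
    set V := ν.real Set.univ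
    rcases (measureReal_nonneg : 0 ≤ V).eq_or_lt with hV | hV
    · rw [show V = 0 from hV.symm, zero_mul]; exact integral_nonneg fun x => sq_nonneg _
    · calc _ = V⁻¹ * ((∫ x, η k x ∂ν) - ∫ x, f x ∂ν) ^ 2 := by field_simp
        _ ≤ V⁻¹ * (V * ∫ x, (η k x - f x) ^ 2 ∂ν) :=
            mul_le_mul_of_nonneg_left h1 (inv_nonneg.2 hV.le)
        _ = _ := inv_mul_cancel_left₀ hV.ne' _
  have hlim := tendsto_sq_of_sub (u := fun k x => η k x - m k) (v := fun x => f x - m₀)
    (fun k => (hη2 k).sub (memLp_const _)) (hf2.sub (memLp_const _)) (by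
      refine squeeze_zero (fun k => integral_nonneg fun x => sq_nonneg _) (fun k => ?_)
        (by simpa using hfB.const_mul 4)
      have i1 : Integrable (fun x => (η k x - f x) ^ 2) ν := ((hη2 k).sub hf2).integrable_sq
      refine (integral_mono_of_nonneg (Eventually.of_forall fun x => sq_nonneg _)
        ((i1.const_mul 2).add (integrable_const (2 * (m k - m₀) ^ 2)))
        (Eventually.of_forall fun x => ?_)).trans ?_
      · simp only [Pi.add_apply]
        nlinarith [sq_nonneg (η k x - f x + (m k - m₀))]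
      · simp only [Pi.add_apply]
        rw [integral_add (i1.const_mul 2) (integrable_const _), integral_const_mul, integral_const,
          smul_eq_mul]
        linarith [hmean k])
  refine le_of_tendsto_of_tendsto' hlim
    ((tendsto_gradSum hν h hη hd).const_mul (16 * ρ ^ 2)) fun k => ?_
  exact poincare_smooth ((hη k).smooth.of_le (by simp)) (hη k).compact c hρ

theorem rellich : RellichStmt := by
  intro f g C h hb
  have hk : ∀ k : ℕ, ∃ η : Space → ℝ, IsBump Set.univ η ∧
      ∫ x, (η x - f k x) ^ 2 < 1 / ((k : ℝ) + 1) ∧ ∫ x, η x ^ 2 ≤ C + 1 ∧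
      ∫ x, gradSum η x ≤ C + 1 := by
    intro k
    obtain ⟨η, hη, hf, hd⟩ := exists_bumps (h k)
    have h1 := tendsto_sq_of_sub
      (fun j => (hη j).continuous.memLp_of_hasCompactSupport (hη j).compact) (h k).memLp hf
    obtain ⟨j, hj⟩ := ((hf.eventually_lt_const (by positivity : (0 : ℝ) < 1 / ((k : ℝ) + 1))).and
      ((h1.eventually_le_const (show _ < C + 1 by linarith [(hb k).1])).and
        ((tendsto_gradSum le_rfl (h k) hη hd).eventually_le_const
          (show (∑ a, ∫ x, g k a x ^ 2) < C + 1 by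
            have := (hb k).2; unfold dirichlet at this; linarith)))).exists
    exact ⟨η j, hη j, hj⟩
  choose η hη hclose hL2 hgrad using hk
  have hη2 : ∀ k, MemLp (η k) 2 := fun k =>
    (hη k).continuous.memLp_of_hasCompactSupport (hη k).compact
  have htr : ∀ k (t : Space), ∫ x, ‖η k (x + t) - η k x‖ ^ 2 ≤ (C + 1) * ‖t‖ ^ 2 := by
    intro k t
    have hs : ContDiff ℝ 1 (η k) := (hη k).smooth.of_le (by simp)
    obtain ⟨K, hK⟩ := hs.lipschitzWith_of_hasCompactSupport (hη k).compact one_ne_zero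
    refine (translate_le Space ℝ volume (η k) K hK (hη k).compact t).trans ?_
    rw [mul_comm (C + 1)]
    refine mul_le_mul_of_nonneg_left ((integral_mono_of_nonneg
      (Eventually.of_forall fun x => sq_nonneg _) (integrable_gradSum hs (hη k).compact)
      (Eventually.of_forall (norm_fderiv_sq_le (η k)))).trans (hgrad k)) (sq_nonneg _)
  obtain ⟨φ, u, hφ, hu, -, hlim⟩ := compact_L2 Space ℝ volume η (C + 1) hη2
    (fun k => by simpa [Real.norm_eq_abs, sq_abs] using hL2 k) htr
  simp only [Real.norm_eq_abs, sq_abs] at hlim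
  have hconv : ∀ R : ℝ,
      Tendsto (fun k => ∫ x in closedBall 0 R, (f (φ k) x - u x) ^ 2) atTop (𝓝 0) := by
    intro R
    refine tendsto_sub_trans (fun k => (h (φ k)).memLp.restrict _) (fun k => (hη2 (φ k)).restrict _)
      (hu.restrict _) ?_ (hlim R)
    refine squeeze_zero (fun k => integral_nonneg fun x => sq_nonneg _) (fun k => ?_)
      ((tendsto_one_div_add_atTop_nhds_zero_nat (𝕜 := ℝ)).comp hφ.tendsto_atTop)
    have e : ∫ x in closedBall 0 R, (f (φ k) x - η (φ k) x) ^ 2 =
        ∫ x in closedBall 0 R, (η (φ k) x - f (φ k) x) ^ 2 :=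
      integral_congr_ae (Eventually.of_forall fun x => sub_sq_comm _ _)
    rw [e]
    exact (setIntegral_le_integral ((hη2 (φ k)).sub (h (φ k)).memLp).integrable_sq
      (Eventually.of_forall fun x => sq_nonneg _)).trans (hclose (φ k)).le
  refine ⟨φ, u, hφ, hu, ?_, hconv⟩
  have hR : ∀ R : ℝ, ∫ x in closedBall 0 R, u x ^ 2 ≤ C := fun R =>
    le_of_tendsto' (tendsto_sq_of_sub (fun k => (h (φ k)).memLp.restrict _) (hu.restrict _)
      (hconv R)) fun k => (setIntegral_le_integral (h (φ k)).memLp.integrable_sq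
        (Eventually.of_forall fun x => sq_nonneg _)).trans (hb (φ k)).1
  have ht := tendsto_setIntegral_of_monotone (fun n : ℕ => measurableSet_closedBall)
    (fun a b hab => closedBall_subset_closedBall (Nat.cast_le.2 hab))
    (f := fun x => u x ^ 2) (μ := (volume : Measure Space))
    (s := fun n : ℕ => closedBall (0 : Space) n)
    (hu.integrable_sq.integrableOn)
  rw [iUnion_closedBall_nat, setIntegral_univ] at ht
  exact le_of_tendsto' ht fun n => hR n

end Vale.Agent.P363
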