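import Vale.Agent.P363.Base

/-!
P363: what the Sobolev toolkit provides, as propositions. The proofs are `sobolev_six`, `hardy`,
`ball_poincare`, `compact_L2` and `translate_le` in `Tool/Sobolev/*`.
-/

noncomputable section

namespace Vale.Agent.P363

open MeasureTheory Filter
open scoped BigOperators Topology

/-- `f` is in `H¹(ℝ³)` with weak gradient `g`. -/
structure IsH1 (f : Space → ℝ) (g : Fin 3 → Space → ℝ) : Prop where
  memLp : MemLp f 2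
  grad_memLp : ∀ a, MemLp (g a) 2
  weak : HasWeakGrad Set.univ f g

/-- The Dirichlet integral of a gradient. -/
def dirichlet (g : Fin 3 → Space → ℝ) : ℝ := ∑ a, ∫ x, g a x ^ 2

/-- The Sobolev inequality with exponent six. -/
def SobolevSixStmt : Prop :=
  ∃ C : ℝ, 0 < C ∧ ∀ f g, IsH1 f g →
    MemLp f 6 ∧ (∫ x, |f x| ^ 6) ^ ((1 : ℝ) / 3) ≤ C * dirichlet g

/-- The Hardy inequality about any point. -/
def HardyStmt : Prop :=
  ∀ f g, IsH1 f g → ∀ c : Space,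
    Integrable (fun x => f x ^ 2 / ‖x - c‖ ^ 2) ∧
      ∫ x, f x ^ 2 / ‖x - c‖ ^ 2 ≤ 4 * dirichlet g

/-- The Poincaré inequality on balls. -/
def BallPoincareStmt : Prop :=
  ∃ C : ℝ, 0 < C ∧ ∀ f g, IsH1 f g → ∀ (c : Space) (ρ : ℝ), 0 < ρ →
    ∫ x in Metric.ball c ρ, (f x - ⨍ y in Metric.ball c ρ, f y) ^ 2 ≤
      C * ρ ^ 2 * ∑ a, ∫ x in Metric.ball c ρ, g a x ^ 2

/-- Sequences bounded in mean square and uniformly continuous under translations in mean square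
have subsequences converging in mean square on every bounded set. -/
def CompactL2Stmt : Prop :=
  ∀ (E F : Type) [NormedAddCommGroup E] [NormedSpace ℝ E] [FiniteDimensional ℝ E]
    [MeasurableSpace E] [BorelSpace E] (μ : Measure E) [μ.IsAddHaarMeasure]
    [NormedAddCommGroup F] [NormedSpace ℝ F] [FiniteDimensional ℝ F]
    (f : ℕ → E → F) (C : ℝ), (∀ k, MemLp (f k) 2 μ) →
    (∀ k, ∫ x, ‖f k x‖ ^ 2 ∂μ ≤ C) →
    (∀ k h, ∫ x, ‖f k (x + h) - f k x‖ ^ 2 ∂μ ≤ C * ‖h‖ ^ 2) →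
    ∃ (φ : ℕ → ℕ) (g : E → F), StrictMono φ ∧ MemLp g 2 μ ∧ ∫ x, ‖g x‖ ^ 2 ∂μ ≤ C ∧
      ∀ R : ℝ, Tendsto (fun k => ∫ x in Metric.closedBall 0 R, ‖f (φ k) x - g x‖ ^ 2 ∂μ) atTop (𝓝 0)

/-- Translations of a compactly supported Lipschitz function cost at most its derivative. -/
def TranslateStmt : Prop :=
  ∀ (E F : Type) [NormedAddCommGroup E] [NormedSpace ℝ E] [FiniteDimensional ℝ E]
    [MeasurableSpace E] [BorelSpace E] (μ : Measure E) [μ.IsAddHaarMeasure]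
    [NormedAddCommGroup F] [NormedSpace ℝ F] [FiniteDimensional ℝ F]
    (f : E → F) (K : NNReal), LipschitzWith K f → HasCompactSupport f → ∀ h : E,
    ∫ x, ‖f (x + h) - f x‖ ^ 2 ∂μ ≤ ‖h‖ ^ 2 * ∫ x, ‖fderiv ℝ f x‖ ^ 2 ∂μ

/-- The same compactness in `H¹(ℝ³)`. -/
def RellichStmt : Prop :=
  ∀ (f : ℕ → Space → ℝ) (g : ℕ → Fin 3 → Space → ℝ) (C : ℝ), (∀ k, IsH1 (f k) (g k)) →
    (∀ k, (∫ x, f k x ^ 2) ≤ C ∧ dirichlet (g k) ≤ C) →
    ∃ (φ : ℕ → ℕ) (u : Space → ℝ), StrictMono φ ∧ MemLp u 2 ∧ (∫ x, u x ^ 2) ≤ C ∧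
      ∀ R : ℝ, Tendsto (fun k => ∫ x in Metric.closedBall 0 R, (f (φ k) x - u x) ^ 2) atTop (𝓝 0)

end Vale.Agent.P363
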