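import Vale.Agent.P363.Tool.Sobolev.Translate
import Vale.Agent.P363.Tool.Weak.Basic

/-!
P363: Sobolev, Hardy and Poincaré inequalities for smooth functions of compact support.
-/

noncomputable section

namespace Vale.Agent.P363

open MeasureTheory Filter Metric
open scoped BigOperators Topology ENNReal NNReal

/-- The squared length of the gradient. -/
def gradSum (η : Space → ℝ) (x : Space) : ℝ := ∑ a, deriv3 a η x ^ 2

variable {η : Space → ℝ}

lemma gradSum_nonneg (η : Space → ℝ) (x : Space) : 0 ≤ gradSum η x :=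
  Finset.sum_nonneg fun _ _ => sq_nonneg _

lemma norm_fderiv_sq_le (η : Space → ℝ) (x : Space) :
    ‖fderiv ℝ η x‖ ^ 2 ≤ gradSum η x := by
  rw [← Real.sq_sqrt (gradSum_nonneg η x)]
  refine pow_le_pow_left₀ (norm_nonneg _) ?_ 2
  refine ContinuousLinearMap.opNorm_le_bound _ (Real.sqrt_nonneg _) fun v => ?_
  have hv : v = ∑ a, v a • unit3 a := by
    ext i; simp [unit3, Fin.sum_univ_three]; fin_cases i <;> simp
  have e : fderiv ℝ η x v = ∑ a, v a * deriv3 a η x := by
    conv_lhs => rw [hv]
    simp [map_sum, deriv3]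
  rw [Real.norm_eq_abs, EuclideanSpace.norm_eq, ← Real.sqrt_mul (gradSum_nonneg η x), e]
  refine Real.abs_le_sqrt ?_
  simpa [gradSum, mul_comm, Real.norm_eq_abs, sq_abs] using
    Finset.sum_mul_sq_le_sq_mul_sq Finset.univ (fun a => v a) fun a => deriv3 a η x

lemma continuous_gradSum (hη : ContDiff ℝ 1 η) : Continuous (gradSum η) :=
  continuous_finsetSum _ fun a _ => (continuous_deriv3 hη a).pow 2

lemma integrable_gradSum (hη : ContDiff ℝ 1 η) (hc : HasCompactSupport η) :
    Integrable (gradSum η) :=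
  (continuous_gradSum hη).integrable_of_hasCompactSupport
    (HasCompactSupport.intro hc fun x hx => by
      simp [gradSum, deriv3_eq_zero_of_notMem _ hx])

lemma six_smooth : ∃ K : ℝ≥0, ∀ η : Space → ℝ, ContDiff ℝ 1 η → HasCompactSupport η →
    eLpNorm η 6 ≤ K * ENNReal.ofReal (Real.sqrt (∫ x, gradSum η x)) := by
  refine ⟨eLpNormLESNormFDerivOfEqInnerConst (volume : Measure Space) 2, fun η hη hc => ?_⟩
  have h := eLpNorm_le_eLpNorm_fderiv_of_eq_inner (volume : Measure Space) hη hc
    (p := 2) (p' := 6) (by norm_num) (by simp) (by simp; norm_num)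
  refine h.trans (mul_le_mul_right ?_ _)
  have hm : MemLp (fderiv ℝ η) 2 := (hη.continuous_fderiv one_ne_zero).memLp_of_hasCompactSupport
    (hc.fderiv ℝ)
  rw [ENNReal.coe_ofNat, hm.eLpNorm_eq_integral_rpow_norm two_ne_zero ENNReal.ofNat_ne_top,
    Real.sqrt_eq_rpow]
  simp only [ENNReal.toReal_ofNat, Real.rpow_two, one_div]
  exact ENNReal.ofReal_le_ofReal (Real.rpow_le_rpow (integral_nonneg fun _ => sq_nonneg _)
    (integral_mono (hm.integrable_norm_pow two_ne_zero) (integrable_gradSum hη hc)
      (norm_fderiv_sq_le η)) (by norm_num))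

lemma norm_sub_smul_unit (q : Space) (a : Fin 3) (t : ℝ) :
    ‖q + t • unit3 a‖ ^ 2 = ‖q‖ ^ 2 + 2 * t * q a + t ^ 2 := by
  rw [norm_add_sq_real, inner_smul_right, norm_smul, norm_unit3, unit3,
    EuclideanSpace.inner_single_right]
  simp
  ring

lemma hardy_smooth (hη : ContDiff ℝ 1 η) (hc : HasCompactSupport η) (c : Space) {ε : ℝ}
    (hε : 0 < ε) :
    ∫ x, η x ^ 2 * (‖x - c‖ ^ 2 + ε)⁻¹ ≤ 4 * ∫ x, gradSum η x := by
  set w : Space → ℝ := fun x => (‖x - c‖ ^ 2 + ε)⁻¹ with hw
  set P : Fin 3 → Space → ℝ := fun a x => η x ^ 2 * ((x a - c a) * w x) with hP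
  have hwd : ContDiff ℝ 1 w :=
    (((contDiff_id.sub contDiff_const).norm_sq ℝ).add contDiff_const).inv fun x => by positivity
  have hPd : ∀ a, ContDiff ℝ 1 (P a) := fun a =>
    (hη.pow 2).mul ((((EuclideanSpace.proj a : Space →L[ℝ] ℝ).contDiff).sub contDiff_const).mul hwd)
  have hPc : ∀ a, HasCompactSupport (P a) := fun a =>
    HasCompactSupport.intro hc fun x hx => by simp [hP, image_eq_zero_of_notMem_tsupport hx]
  have hder : ∀ a x, deriv3 a (P a) x =
      2 * η x * deriv3 a η x * ((x a - c a) * w x) +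
        η x ^ 2 * (w x - 2 * (x a - c a) ^ 2 * w x ^ 2) := by
    intro a x
    have hdP : HasDerivAt (fun t : ℝ => P a (x + t • unit3 a))
        (2 * η x * deriv3 a η x * ((x a - c a) * w x) +
          η x ^ 2 * (w x - 2 * (x a - c a) ^ 2 * w x ^ 2)) 0 := by
      have e : (fun t : ℝ => P a (x + t • unit3 a)) = fun t => η (x + t • unit3 a) ^ 2 *
          (((x a - c a) + t) * (‖x - c‖ ^ 2 + 2 * t * (x a - c a) + t ^ 2 + ε)⁻¹) := by
        funext t
        simp only [hP, hw]
        rw [add_sub_right_comm x (t • unit3 a) c, norm_sub_smul_unit, PiLp.sub_apply]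
        congr 2
        simp [unit3]
        ring
      rw [e]
      have h1 : HasDerivAt (fun t : ℝ => η (x + t • unit3 a)) (deriv3 a η x) 0 :=
        (hη.differentiable one_ne_zero x).hasFDerivAt.hasLineDerivAt (unit3 a)
      have h2 : HasDerivAt (fun t : ℝ => (x a - c a) + t) 1 0 := (hasDerivAt_id _).const_add _
      have h3 : HasDerivAt (fun t : ℝ => ‖x - c‖ ^ 2 + 2 * t * (x a - c a) + t ^ 2 + ε)
          (2 * (x a - c a)) 0 := by
        simpa using (((((hasDerivAt_id (0 : ℝ)).const_mul 2).mul_const (x a - c a)).const_add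
          (‖x - c‖ ^ 2)).add ((hasDerivAt_id (0 : ℝ)).pow 2)).add_const ε
      have hne : ‖x - c‖ ^ 2 + 2 * (0 : ℝ) * (x a - c a) + (0 : ℝ) ^ 2 + ε ≠ 0 := by
        simp; positivity
      refine ((h1.fun_pow 2).fun_mul (h2.fun_mul (h3.fun_inv hne))).congr_deriv ?_
      simp [hw]
      field_simp
      ring_nf
      simp
    exact (((hPd a).differentiable one_ne_zero x).hasFDerivAt.hasLineDerivAt (unit3 a)).unique hdP
  have hi : ∀ a, Integrable (deriv3 a (P a)) := fun a =>
    (continuous_deriv3 (hPd a) a).integrable_of_hasCompactSupport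
      (hasCompactSupport_deriv3 a (hPc a))
  have h0 : ∫ x, ∑ a, deriv3 a (P a) x = 0 := by
    rw [integral_finsetSum _ fun a _ => hi a]
    exact Finset.sum_eq_zero fun a _ => integral_deriv3 (hPd a) (hPc a) a
  have iη : Integrable fun x => η x ^ 2 * w x :=
    ((hη.continuous.pow 2).mul hwd.continuous).integrable_of_hasCompactSupport
      (HasCompactSupport.intro hc fun x hx => by simp [image_eq_zero_of_notMem_tsupport hx])
  have ig := integrable_gradSum hη hc
  have hle : ∫ x, (1 / 2 * (η x ^ 2 * w x) - 2 * gradSum η x) ≤ ∫ x, ∑ a, deriv3 a (P a) x := by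
    refine integral_mono ((iη.const_mul _).sub (ig.const_mul _))
      (integrable_finsetSum _ fun a _ => hi a) fun x => ?_
    simp only [hder]
    have hwx : 0 < w x := by simp only [hw]; positivity
    have hr : ∑ a, (x a - c a) ^ 2 = ‖x - c‖ ^ 2 := by
      simp [EuclideanSpace.norm_sq_eq, Real.norm_eq_abs, sq_abs]
    have hr1 : ‖x - c‖ ^ 2 * w x ≤ 1 := by
      rw [hw, ← div_eq_mul_inv, div_le_one (by positivity)]; linarith
    have hb : ∀ a, -(1 / 2 * η x ^ 2 * ((x a - c a) ^ 2 * w x ^ 2)) - 2 * deriv3 a η x ^ 2 ≤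
        2 * η x * deriv3 a η x * ((x a - c a) * w x) := fun a => by
      nlinarith [sq_nonneg (η x * ((x a - c a) * w x) + 2 * deriv3 a η x)]
    have hη0 := mul_le_mul_of_nonneg_left hr1 (by positivity : 0 ≤ η x ^ 2 * w x)
    simp only [Fin.sum_univ_three] at hr ⊢
    simp only [gradSum, Fin.sum_univ_three]
    have hr2 := congrArg (fun s => s * (η x ^ 2 * w x ^ 2)) hr
    beta_reduce at hr2
    linarith [hb 0, hb 1, hb 2]
  rw [integral_sub (iη.const_mul _) (ig.const_mul _), integral_const_mul, integral_const_mul, h0]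
    at hle
  linarith

lemma lintegral_affine_le {G : Space → ℝ≥0∞} (hG : Measurable G) (a : Space) {t : ℝ}
    (ht : 1 / 2 ≤ t) : ∫⁻ x, G (a + t • x) ≤ 8 * ∫⁻ x, G x := by
  have t0 : 0 < t := by linarith
  rw [← lintegral_map (f := fun y => G (a + y)) (hG.comp (measurable_const_add a))
      (measurable_const_smul t), Measure.map_addHaar_smul _ t0.ne', lintegral_smul_measure,
    lintegral_add_left_eq_self, smul_eq_mul]
  refine mul_le_mul_left ?_ _
  rw [finrank_euclideanSpace_fin, abs_of_pos (by positivity)]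
  refine (ENNReal.ofReal_le_ofReal (?_ : _ ≤ (8 : ℝ))).trans_eq (by simp)
  calc (t ^ 3)⁻¹ ≤ ((1 / 2 : ℝ) ^ 3)⁻¹ := by gcongr
    _ = 8 := by norm_num

lemma double_sub_sq_le (hη : ContDiff ℝ 1 η) (hc : HasCompactSupport η) (c : Space) {ρ : ℝ} :
    ∫⁻ y in ball c ρ, ∫⁻ x in ball c ρ, ENNReal.ofReal ((η x - η y) ^ 2) ≤
      ENNReal.ofReal (4 * ρ ^ 2) *
        (volume (ball c ρ) * (8 * ∫⁻ x in ball c ρ, ENNReal.ofReal (gradSum η x))) := by
  obtain ⟨K, hK⟩ := hη.lipschitzWith_of_hasCompactSupport hc one_ne_zero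
  set B := ball c ρ
  set G : Space → ℝ≥0∞ := B.indicator fun z => ENNReal.ofReal (gradSum η z) with hG
  have hGm : Measurable G :=
    (continuous_gradSum hη).measurable.ennreal_ofReal.indicator measurableSet_ball
  have hseg : ∀ y ∈ B, ∀ x ∈ B, ENNReal.ofReal ((η x - η y) ^ 2) ≤
      ENNReal.ofReal (4 * ρ ^ 2) * ∫⁻ t : ℝ in Set.Ioc 0 1, G ((1 - t) • y + t • x) := by
    intro y hy x hx
    have h := segment_sq_le hK (x := y) (h := x - y)
      (ae_of_all _ fun t => hη.differentiable one_ne_zero _)
    have e : ∀ t : ℝ, y + t • (x - y) = (1 - t) • y + t • x := fun t => by module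
    simp only [e, add_sub_cancel, Real.norm_eq_abs, sq_abs] at h
    have hn : ‖x - y‖ ^ 2 ≤ 4 * ρ ^ 2 := by
      have h1 : ‖x - y‖ ≤ 2 * ρ := by
        rw [← dist_eq_norm]
        have := dist_triangle_right x y c
        rw [mem_ball] at hx hy
        linarith
      have := pow_le_pow_left₀ (norm_nonneg _) h1 2
      linarith
    have hint : Integrable (fun t : ℝ => ‖fderiv ℝ η ((1 - t) • y + t • x)‖ ^ 2)
        (volume.restrict (Set.Ioc 0 1)) := by
      have hcn := hη.continuous_fderiv one_ne_zero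
      exact Continuous.integrableOn_Ioc (by fun_prop)
    refine (ENNReal.ofReal_le_ofReal (h.trans
      (mul_le_mul_of_nonneg_right hn (integral_nonneg fun _ => sq_nonneg _)))).trans ?_
    rw [ENNReal.ofReal_mul (by positivity),
      ofReal_integral_eq_lintegral_ofReal hint (Eventually.of_forall fun _ => sq_nonneg _)]
    refine mul_le_mul_right (setLIntegral_mono (hGm.comp (by fun_prop)) fun t ht => ?_) _
    have hm : (1 - t) • y + t • x ∈ B :=
      convex_ball c ρ hy hx (by linarith [ht.2]) ht.1.le (sub_add_cancel 1 t)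
    rw [hG, Function.comp_apply, Set.indicator_of_mem hm]
    exact ENNReal.ofReal_le_ofReal (norm_fderiv_sq_le η _)
  have hyt : Measurable fun p : Space × ℝ => ∫⁻ x in B, G ((1 - p.2) • p.1 + p.2 • x) :=
    Measurable.lintegral_prod_right'
      (f := fun q : (Space × ℝ) × Space => G ((1 - q.1.2) • q.1.1 + q.1.2 • q.2))
      (hGm.comp (by fun_prop))
  have ht : ∀ t : ℝ, ∫⁻ y in B, ∫⁻ x in B, G ((1 - t) • y + t • x) ≤
      volume B * (8 * ∫⁻ x in B, ENNReal.ofReal (gradSum η x)) := by
    intro t
    rw [show ∫⁻ x in B, ENNReal.ofReal (gradSum η x) = ∫⁻ x, G x from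
      (lintegral_indicator measurableSet_ball _).symm]
    rcases le_total (1 / 2) t with h | h
    · refine (setLIntegral_mono measurable_const fun y _ =>
        (setLIntegral_le_lintegral _ _).trans (lintegral_affine_le hGm _ h)).trans_eq ?_
      rw [setLIntegral_const, mul_comm]
    · rw [lintegral_lintegral_swap (f := fun y x : Space => G ((1 - t) • y + t • x))
        (hGm.comp (by fun_prop)).aemeasurable]
      refine (setLIntegral_mono measurable_const fun x _ =>
        (setLIntegral_le_lintegral _ _).trans ?_).trans_eq (by rw [setLIntegral_const, mul_comm])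
      simp only [fun y : Space => add_comm ((1 - t) • y) (t • x)]
      exact lintegral_affine_le hGm _ (by linarith)
  calc _ ≤ ∫⁻ y in B, ∫⁻ x in B,
        ENNReal.ofReal (4 * ρ ^ 2) * ∫⁻ t : ℝ in Set.Ioc 0 1, G ((1 - t) • y + t • x) :=
        setLIntegral_mono' measurableSet_ball fun y hy =>
          setLIntegral_mono' measurableSet_ball fun x hx => hseg y hy x hx
    _ = ENNReal.ofReal (4 * ρ ^ 2) *
        ∫⁻ t : ℝ in Set.Ioc 0 1, ∫⁻ y in B, ∫⁻ x in B, G ((1 - t) • y + t • x) := by
        simp only [lintegral_const_mul' _ _ ENNReal.ofReal_ne_top]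
        congr 1
        rw [lintegral_congr fun y => lintegral_lintegral_swap
          (f := fun (x : Space) (t : ℝ) => G ((1 - t) • y + t • x))
          (hGm.comp (by fun_prop)).aemeasurable]
        exact lintegral_lintegral_swap hyt.aemeasurable
    _ ≤ _ := by
        refine mul_le_mul_right ((setLIntegral_mono measurable_const fun t _ => ht t).trans_eq ?_) _
        simp

lemma poincare_smooth (hη : ContDiff ℝ 1 η) (hc : HasCompactSupport η) (c : Space) {ρ : ℝ}
    (hρ : 0 < ρ) :
    ∫ x in ball c ρ, (η x - ⨍ y in ball c ρ, η y) ^ 2 ≤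
      16 * ρ ^ 2 * ∫ x in ball c ρ, gradSum η x := by
  set B := ball c ρ
  set V := (volume : Measure Space).real B
  have hV : 0 < V := ENNReal.toReal_pos (measure_ball_pos volume c hρ).ne' measure_ball_lt_top.ne
  set S1 := ∫ x in B, η x
  set S2 := ∫ x in B, η x ^ 2
  set D := ∫ x in B, gradSum η x
  have : IsFiniteMeasure (volume.restrict B) := ⟨by simpa using measure_ball_lt_top⟩
  have i1 : Integrable η (volume.restrict B) :=
    (hη.continuous.integrable_of_hasCompactSupport hc).integrableOn
  have c2 : HasCompactSupport fun x => η x ^ 2 :=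
    HasCompactSupport.intro hc fun x hx => by simp [image_eq_zero_of_notMem_tsupport hx]
  have i2' : Integrable (fun x => η x ^ 2) (volume : Measure Space) :=
    Continuous.integrable_of_hasCompactSupport (by have := hη.continuous; fun_prop) c2
  have i2 : Integrable (fun x => η x ^ 2) (volume.restrict B) := i2'.integrableOn
  have hq : ∀ m : ℝ, ∫ x in B, (η x - m) ^ 2 = S2 - 2 * m * S1 + V * m ^ 2 := by
    intro m
    have e : (fun x => (η x - m) ^ 2) = fun x => (η x ^ 2 - 2 * m * η x) + m ^ 2 := by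
      funext x; ring
    rw [e, integral_add (f := fun x => η x ^ 2 - 2 * m * η x) (g := fun _ => m ^ 2)
        (i2.sub (i1.const_mul _)) (integrable_const _),
      integral_sub (g := fun x => 2 * m * η x) i2 (i1.const_mul _), integral_const_mul,
      setIntegral_const, smul_eq_mul]
  have hqi : ∀ m : ℝ, Integrable (fun x => (η x - m) ^ 2) (volume.restrict B) := by
    intro m
    have e : (fun x => (η x - m) ^ 2) = fun x => (η x ^ 2 - 2 * m * η x) + m ^ 2 := by
      funext x; ring
    rw [e]
    exact (i2.sub (i1.const_mul _)).add (integrable_const _)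
  have io : Integrable (fun y => ∫ x in B, (η x - η y) ^ 2) (volume.restrict B) := by
    simp only [hq]
    exact ((integrable_const S2).sub ((i1.const_mul 2).mul_const S1)).add (i2.const_mul V)
  have key : ∫ y in B, ∫ x in B, (η x - η y) ^ 2 ≤ 4 * ρ ^ 2 * (V * (8 * D)) := by
    have hD : 0 ≤ D := integral_nonneg (gradSum_nonneg η)
    rw [← ENNReal.ofReal_le_ofReal_iff (by positivity),
      ofReal_integral_eq_lintegral_ofReal io
        (Eventually.of_forall fun y => integral_nonneg fun x => sq_nonneg _),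
      ENNReal.ofReal_mul (by positivity), ENNReal.ofReal_mul hV.le,
      ENNReal.ofReal_mul (by norm_num : (0 : ℝ) ≤ 8), ENNReal.ofReal_ofNat,
      ofReal_measureReal measure_ball_lt_top.ne,
      ofReal_integral_eq_lintegral_ofReal (integrable_gradSum hη hc).integrableOn
        (Eventually.of_forall (gradSum_nonneg η))]
    refine le_of_eq_of_le (lintegral_congr fun y => ?_) (double_sub_sq_le hη hc c)
    exact ofReal_integral_eq_lintegral_ofReal (hqi _) (Eventually.of_forall fun x => sq_nonneg _)
  simp only [hq] at key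
  rw [integral_add (f := fun y => S2 - 2 * η y * S1) (g := fun y => V * η y ^ 2)
      ((integrable_const S2).sub ((i1.const_mul 2).mul_const S1)) (i2.const_mul V),
    integral_sub (g := fun y => 2 * η y * S1) (integrable_const S2) ((i1.const_mul 2).mul_const S1),
    integral_mul_const, integral_const_mul, integral_const_mul, setIntegral_const, smul_eq_mul]
    at key
  have hm : ⨍ y in B, η y = S1 / V := by
    rw [setAverage_eq, smul_eq_mul, inv_mul_eq_div]
  rw [hm, hq]
  rw [← mul_le_mul_iff_of_pos_left (by positivity : 0 < 2 * V)]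
  refine le_of_eq_of_le ?_ (key.trans_eq (by ring))
  field_simp
  ring

end Vale.Agent.P363
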