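import Vale.Agent.P363.Tool.Sobolev.Smooth
import Vale.Agent.P363.Tool.Weak.Moll

/-!
P363: functions in `H¹(ℝ³)` are limits, together with their gradients, of test functions.
-/

noncomputable section

namespace Vale.Agent.P363

open MeasureTheory Filter Metric
open scoped BigOperators Topology ENNReal NNReal ContDiff

section meanSquare

variable {α : Type*} [MeasurableSpace α] {μ : Measure α}

lemma norm_toLp_two {u : α → ℝ} (hu : MemLp u 2 μ) :
    ‖hu.toLp u‖ = Real.sqrt (∫ x, u x ^ 2 ∂μ) := by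
  rw [Lp.norm_toLp, hu.eLpNorm_eq_integral_rpow_norm two_ne_zero ENNReal.ofNat_ne_top]
  simp only [ENNReal.toReal_ofNat, Real.rpow_two, Real.norm_eq_abs, sq_abs]
  rw [ENNReal.toReal_ofReal (by positivity), Real.sqrt_eq_rpow, one_div]

lemma tendsto_toLp_two {u : ℕ → α → ℝ} {v : α → ℝ} (hu : ∀ k, MemLp (u k) 2 μ)
    (hv : MemLp v 2 μ) (h : Tendsto (fun k => ∫ x, (u k x - v x) ^ 2 ∂μ) atTop (𝓝 0)) :
    Tendsto (fun k => (hu k).toLp (u k)) atTop (𝓝 (hv.toLp v)) := by
  rw [tendsto_iff_dist_tendsto_zero]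
  have h2 := h.sqrt
  rw [Real.sqrt_zero] at h2
  refine h2.congr fun k => ?_
  rw [dist_eq_norm, ← MemLp.toLp_sub, norm_toLp_two]
  simp only [Pi.sub_apply]

lemma tendsto_sq_of_sub {u : ℕ → α → ℝ} {v : α → ℝ} (hu : ∀ k, MemLp (u k) 2 μ)
    (hv : MemLp v 2 μ) (h : Tendsto (fun k => ∫ x, (u k x - v x) ^ 2 ∂μ) atTop (𝓝 0)) :
    Tendsto (fun k => ∫ x, u k x ^ 2 ∂μ) atTop (𝓝 (∫ x, v x ^ 2 ∂μ)) := by
  have h' := (tendsto_toLp_two hu hv h).norm.pow 2
  simp only [norm_toLp_two] at h'
  rwa [Real.sq_sqrt (integral_nonneg fun _ => sq_nonneg _),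
    funext fun k => Real.sq_sqrt (integral_nonneg fun x => sq_nonneg (u k x))] at h'

lemma tendsto_sub_trans {u w : ℕ → α → ℝ} {v : α → ℝ} (hu : ∀ k, MemLp (u k) 2 μ)
    (hw : ∀ k, MemLp (w k) 2 μ) (hv : MemLp v 2 μ)
    (h1 : Tendsto (fun k => ∫ x, (u k x - w k x) ^ 2 ∂μ) atTop (𝓝 0))
    (h2 : Tendsto (fun k => ∫ x, (w k x - v x) ^ 2 ∂μ) atTop (𝓝 0)) :
    Tendsto (fun k => ∫ x, (u k x - v x) ^ 2 ∂μ) atTop (𝓝 0) := by
  refine squeeze_zero (fun k => integral_nonneg fun x => sq_nonneg _) (fun k => ?_)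
    (by simpa using (h1.const_mul 2).add (h2.const_mul 2))
  have i1 : Integrable (fun x => (u k x - w k x) ^ 2) μ := ((hu k).sub (hw k)).integrable_sq
  have i2 : Integrable (fun x => (w k x - v x) ^ 2) μ := ((hw k).sub hv).integrable_sq
  refine (integral_mono_of_nonneg (Eventually.of_forall fun x => sq_nonneg _)
    ((i1.const_mul 2).add (i2.const_mul 2)) (Eventually.of_forall fun x => ?_)).trans_eq ?_
  · simp only [Pi.add_apply]
    nlinarith [sq_nonneg (u k x - w k x - (w k x - v x))]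
  · simp only [Pi.add_apply]
    rw [integral_add (i1.const_mul 2) (i2.const_mul 2), integral_const_mul, integral_const_mul]

end meanSquare

/-- The fixed cut-off profile. -/
def h1Profile : ContDiffBump (0 : Space) := ⟨1, 2, one_pos, one_lt_two⟩

/-- The cut-off at radius `n + 1`. -/
def h1Cut (n : ℕ) (x : Space) : ℝ := h1Profile ((1 / ((n : ℝ) + 1)) • x)

lemma h1Cut_smooth (n : ℕ) : ContDiff ℝ ∞ (h1Cut n) :=
  h1Profile.contDiff.comp (contDiff_const_smul _)

lemma h1Cut_compact (n : ℕ) : HasCompactSupport (h1Cut n) :=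
  h1Profile.hasCompactSupport.comp_smul (by positivity)

lemma h1Cut_eventually (x : Space) : ∀ᶠ n : ℕ in atTop, h1Cut n x = 1 := by
  have : Tendsto (fun n : ℕ => 1 / ((n : ℝ) + 1) * ‖x‖) atTop (𝓝 0) := by
    simpa using ((tendsto_one_div_add_atTop_nhds_zero_nat : Tendsto (fun n : ℕ => 1 / ((n : ℝ) + 1))
      atTop (𝓝 0)).mul_const ‖x‖)
  filter_upwards [this.eventually_le_const one_pos] with n hn
  refine h1Profile.one_of_mem_closedBall ?_
  rw [mem_closedBall_zero_iff, norm_smul, Real.norm_eq_abs,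
    abs_of_nonneg (by positivity : (0 : ℝ) ≤ 1 / ((n : ℝ) + 1))]
  exact hn

lemma h1Cut_deriv : ∃ C : ℝ, 0 ≤ C ∧ ∀ n a x, |deriv3 a (h1Cut n) x| ≤ C * (1 / ((n : ℝ) + 1)) := by
  have hd : ContDiff ℝ 1 (h1Profile : Space → ℝ) := h1Profile.contDiff
  obtain ⟨C, hC⟩ := (h1Profile.hasCompactSupport.fderiv ℝ).exists_bound_of_continuous
    (hd.continuous_fderiv one_ne_zero)
  refine ⟨max C 0, le_max_right _ _, fun n a x => ?_⟩
  set s := 1 / ((n : ℝ) + 1) with hs
  have hs0 : 0 ≤ s := by positivity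
  have h1 : HasFDerivAt (h1Cut n)
      ((fderiv ℝ (h1Profile : Space → ℝ) (s • x)).comp (s • ContinuousLinearMap.id ℝ Space)) x :=
    ((hd.differentiable one_ne_zero) (s • x)).hasFDerivAt.comp x ((hasFDerivAt_id x).const_smul s)
  rw [deriv3, h1.fderiv]
  simp only [ContinuousLinearMap.comp_apply, smul_apply,
    ContinuousLinearMap.id_apply, map_smul, smul_eq_mul, abs_mul, abs_of_nonneg hs0]
  rw [mul_comm (max C 0)]
  refine mul_le_mul_of_nonneg_left ?_ hs0
  exact ((abs_deriv3_le a (s • x)).trans (hC _)).trans (le_max_left _ _)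

/-- Smooth functions in `L²` with gradient in `L²` are limits of their cut-offs. -/
lemma cut_tendsto {m : Space → ℝ} (hm : ContDiff ℝ ∞ m) (h2 : MemLp m 2)
    (hd : ∀ a, MemLp (deriv3 a m) 2) :
    Tendsto (fun n => ∫ x, (h1Cut n x * m x - m x) ^ 2) atTop (𝓝 0) ∧
      ∀ a, Tendsto (fun n => ∫ x, (deriv3 a (fun y => h1Cut n y * m y) x - deriv3 a m x) ^ 2)
        atTop (𝓝 0) := by
  obtain ⟨C, hC0, hC⟩ := h1Cut_deriv
  have hb : ∀ n x, |h1Cut n x - 1| ≤ 1 := fun n x => by
    have h1 : 0 ≤ h1Cut n x := h1Profile.nonneg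
    have h2 : h1Cut n x ≤ 1 := h1Profile.le_one
    exact abs_le.2 ⟨by linarith, by linarith⟩
  have hcm := hm.continuous
  refine ⟨?_, fun a => ?_⟩
  · have := tendsto_integral_of_dominated_convergence
      (F := fun n x => (h1Cut n x * m x - m x) ^ 2) (f := fun _ => 0) (fun x => m x ^ 2)
      (fun n => by
        have := (h1Cut_smooth n).continuous
        exact (by fun_prop : Continuous fun x => (h1Cut n x * m x - m x) ^ 2).aestronglyMeasurable)
      h2.integrable_sq
      (fun n => Eventually.of_forall fun x => by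
        rw [Real.norm_eq_abs, abs_of_nonneg (sq_nonneg _), ← sub_one_mul, mul_pow]
        refine mul_le_of_le_one_left (sq_nonneg _) ?_
        rw [← sq_abs]
        exact pow_le_one₀ (abs_nonneg _) (hb n x))
      (Eventually.of_forall fun x => tendsto_const_nhds.congr'
        ((h1Cut_eventually x).mono fun n hn => by simp [hn]))
    simpa using this
  · have e : ∀ n x, deriv3 a (fun y => h1Cut n y * m y) x - deriv3 a m x =
        deriv3 a (h1Cut n) x * m x + (h1Cut n x - 1) * deriv3 a m x := fun n x => by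
      rw [deriv3_mul ((h1Cut_smooth n).differentiable (by simp) x) (hm.differentiable (by simp) x)]
      ring
    simp only [e]
    have := tendsto_integral_of_dominated_convergence
      (F := fun n x => (deriv3 a (h1Cut n) x * m x + (h1Cut n x - 1) * deriv3 a m x) ^ 2)
      (f := fun _ => 0) (fun x => 2 * C ^ 2 * m x ^ 2 + 2 * deriv3 a m x ^ 2)
      (fun n => by
        have := (h1Cut_smooth n).continuous
        have := continuous_deriv3 (η := h1Cut n) ((h1Cut_smooth n).of_le (by simp)) a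
        have := continuous_deriv3 (η := m) (hm.of_le (by simp)) a
        exact (by fun_prop : Continuous fun x =>
          (deriv3 a (h1Cut n) x * m x + (h1Cut n x - 1) * deriv3 a m x) ^ 2).aestronglyMeasurable)
      ((h2.integrable_sq.const_mul _).add ((hd a).integrable_sq.const_mul _))
      (fun n => Eventually.of_forall fun x => by
        rw [Real.norm_eq_abs, abs_of_nonneg (sq_nonneg _)]
        have u1 : deriv3 a (h1Cut n) x ^ 2 ≤ C ^ 2 := by
          rw [← sq_abs]
          exact pow_le_pow_left₀ (abs_nonneg _) ((hC n a x).trans (mul_le_of_le_one_right hC0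
            (by rw [div_le_one (by positivity)]; simp))) 2
        have u2 : (h1Cut n x - 1) ^ 2 ≤ 1 := by
          rw [← sq_abs]; exact pow_le_one₀ (abs_nonneg _) (hb n x)
        nlinarith [sq_nonneg (deriv3 a (h1Cut n) x * m x - (h1Cut n x - 1) * deriv3 a m x),
          mul_le_mul_of_nonneg_right u1 (sq_nonneg (m x)),
          mul_le_mul_of_nonneg_right u2 (sq_nonneg (deriv3 a m x))])
      (Eventually.of_forall fun x => by
        have t1 : Tendsto (fun n => deriv3 a (h1Cut n) x) atTop (𝓝 0) :=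
          squeeze_zero_norm (fun n => hC n a x)
            (by simpa using tendsto_one_div_add_atTop_nhds_zero_nat.const_mul C)
        have t2 : Tendsto (fun n => h1Cut n x) atTop (𝓝 1) :=
          tendsto_const_nhds.congr' ((h1Cut_eventually x).mono fun n hn => hn.symm)
        simpa using (((t1.mul_const (m x)).add ((t2.sub_const 1).mul_const (deriv3 a m x))).pow 2))
    simpa using this

theorem exists_bumps {f : Space → ℝ} {g : Fin 3 → Space → ℝ} (h : IsH1 f g) :
    ∃ η : ℕ → Space → ℝ, (∀ k, IsBump Set.univ (η k)) ∧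
      Tendsto (fun k => ∫ x, (η k x - f x) ^ 2) atTop (𝓝 0) ∧
      ∀ a, Tendsto (fun k => ∫ x, (deriv3 a (η k) x - g a x) ^ 2) atTop (𝓝 0) := by
  have hfl : LocallyIntegrable f := h.memLp.locallyIntegrable one_le_two
  have hgl : ∀ a, LocallyIntegrable (g a) := fun a => (h.grad_memLp a).locallyIntegrable one_le_two
  have hmol : ∀ {u : Space → ℝ}, MemLp u 2 → ∀ k, MemLp (moll k u) 2 := fun {u} hu k =>
    (memLp_two_iff_integrable_sq
      (contDiff_moll k (hu.locallyIntegrable one_le_two)).continuous.aestronglyMeasurable).2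
      (integral_sq_moll_le k (hu.locallyIntegrable one_le_two) hu.integrable_sq).1
  have hd : ∀ k a, deriv3 a (moll k f) = moll k (g a) := fun k a =>
    funext fun x => deriv3_moll h.weak k a x
  have hex : ∀ k : ℕ, ∃ n : ℕ, ∫ x, (h1Cut n x * moll k f x - moll k f x) ^ 2 < 1 / ((k : ℝ) + 1) ∧
      ∀ a, ∫ x, (deriv3 a (fun y => h1Cut n y * moll k f y) x - deriv3 a (moll k f) x) ^ 2 <
        1 / ((k : ℝ) + 1) := by
    intro k
    obtain ⟨t1, t2⟩ := cut_tendsto (contDiff_moll k hfl) (hmol h.memLp k)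
      fun a => hd k a ▸ hmol (h.grad_memLp a) k
    have hk : (0 : ℝ) < 1 / ((k : ℝ) + 1) := by positivity
    exact ((t1.eventually_lt_const hk).and
      (eventually_all.2 fun a => (t2 a).eventually_lt_const hk)).exists
  choose n hn1 hn2 using hex
  set η : ℕ → Space → ℝ := fun k x => h1Cut (n k) x * moll k f x
  have hη : ∀ k, IsBump Set.univ (η k) := fun k =>
    ⟨(h1Cut_smooth _).mul (contDiff_moll k hfl), (h1Cut_compact _).mul_right, Set.subset_univ _⟩
  have hη1 : ∀ k, MemLp (η k) 2 := fun k =>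
    (hη k).continuous.memLp_of_hasCompactSupport (hη k).compact
  have hη2 : ∀ k a, MemLp (deriv3 a (η k)) 2 := fun k a =>
    ((hη k).deriv a).continuous.memLp_of_hasCompactSupport ((hη k).deriv a).compact
  refine ⟨η, hη, ?_, fun a => ?_⟩
  · refine tendsto_sub_trans hη1 (fun k => hmol h.memLp k) h.memLp ?_
      (moll_tendsto_L2 hfl h.memLp.integrable_sq)
    exact squeeze_zero (fun k => integral_nonneg fun x => sq_nonneg _) (fun k => (hn1 k).le)
      tendsto_one_div_add_atTop_nhds_zero_nat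
  · refine tendsto_sub_trans (fun k => hη2 k a) (fun k => hmol (h.grad_memLp a) k)
      (h.grad_memLp a) ?_ (moll_tendsto_L2 (hgl a) (h.grad_memLp a).integrable_sq)
    refine squeeze_zero (fun k => integral_nonneg fun x => sq_nonneg _) (fun k => ?_)
      tendsto_one_div_add_atTop_nhds_zero_nat
    rw [← hd k a]
    exact (hn2 k a).le

end Vale.Agent.P363
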