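import Vale.Agent.P363.Tool.Sobolev.Spec

/-!
P363: local compactness in mean square of translation-equicontinuous bounded sequences.
-/

noncomputable section

set_option linter.unusedSectionVars false

namespace Vale.Agent.P363

open MeasureTheory Filter Metric
open scoped BigOperators Topology ENNReal NNReal

namespace CompactAux

variable {E F : Type} [NormedAddCommGroup E] [NormedSpace ℝ E] [FiniteDimensional ℝ E]
  [MeasurableSpace E] [BorelSpace E] {μ : Measure E} [μ.IsAddHaarMeasure]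
  [NormedAddCommGroup F] [NormedSpace ℝ F]

lemma sq_integral_le {α : Type*} [MeasurableSpace α] {ρ : Measure α} [IsFiniteMeasure ρ]
    {u : α → F} (hu : MemLp u 2 ρ) :
    ‖∫ x, u x ∂ρ‖ ^ 2 ≤ ρ.real Set.univ * ∫ x, ‖u x‖ ^ 2 ∂ρ := by
  have h1 : Integrable (fun x => ‖u x‖) ρ := (hu.integrable (by norm_num)).norm
  have h2 : Integrable (fun x => ‖u x‖ ^ 2) ρ := hu.integrable_norm_pow two_ne_zero
  set S := ∫ x, ‖u x‖ ∂ρ
  set M := ρ.real Set.univ
  have key : S ^ 2 ≤ M * ∫ x, ‖u x‖ ^ 2 ∂ρ := by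
    rcases (measureReal_nonneg (μ := ρ) (s := Set.univ)).eq_or_lt with hM | hM
    · have : ρ = 0 := Measure.measure_univ_eq_zero.1
        ((measureReal_eq_zero_iff (measure_ne_top _ _)).1 hM.symm)
      simp [S, M, this]
    · have h0 : 0 ≤ ∫ x, (‖u x‖ - S / M) ^ 2 ∂ρ := integral_nonneg fun x => sq_nonneg _
      have e : (fun x => (‖u x‖ - S / M) ^ 2) =
          fun x => (‖u x‖ ^ 2 - 2 * (S / M) * ‖u x‖) + (S / M) ^ 2 := by funext x; ring
      rw [e, integral_add (f := fun x => ‖u x‖ ^ 2 - 2 * (S / M) * ‖u x‖)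
          (g := fun _ => (S / M) ^ 2) (h2.sub (h1.const_mul _)) (integrable_const _),
        integral_sub (g := fun x => 2 * (S / M) * ‖u x‖) h2 (h1.const_mul _), integral_const_mul,
        integral_const, smul_eq_mul] at h0
      have hM' : M ≠ 0 := hM.ne'
      have : 0 ≤ ∫ x, ‖u x‖ ^ 2 ∂ρ - S ^ 2 / M := by
        convert h0 using 1
        simp only [S, M]
        field_simp
        ring
      rw [sub_nonneg, div_le_iff₀ hM] at this
      linarith
  exact (pow_le_pow_left₀ (norm_nonneg _) (norm_integral_le_integral_norm u) 2).trans key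

/-- The average over the ball of radius `δ` around each point. -/
def avg (μ : Measure E) (δ : ℝ) (f : E → F) (x : E) : F :=
  (μ.real (ball 0 δ))⁻¹ • ∫ h in ball 0 δ, f (x + h) ∂μ

lemma ball_real_pos {δ : ℝ} (hδ : 0 < δ) : 0 < μ.real (ball (0 : E) δ) :=
  ENNReal.toReal_pos (measure_ball_pos μ _ hδ).ne' measure_ball_lt_top.ne

lemma memLp_shift {f : E → F} (hf : MemLp f 2 μ) (x : E) : MemLp (fun h => f (x + h)) 2 μ :=
  hf.comp_measurePreserving (measurePreserving_add_left μ x)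

lemma avg_lip {f : E → F} (hf : MemLp f 2 μ) {C : ℝ}
    (hs : ∀ h, ∫ y, ‖f (y + h) - f y‖ ^ 2 ∂μ ≤ C * ‖h‖ ^ 2) {δ : ℝ} (hδ : 0 < δ) (x y : E) :
    ‖avg μ δ f x - avg μ δ f y‖ ^ 2 ≤ (μ.real (ball (0 : E) δ))⁻¹ * (C * ‖x - y‖ ^ 2) := by
  set M := μ.real (ball (0 : E) δ) with hM
  have hM0 : 0 < M := ball_real_pos hδ
  have : IsFiniteMeasure (μ.restrict (ball (0 : E) δ)) :=
    ⟨by simpa using measure_ball_lt_top⟩
  have mx := (memLp_shift hf x).restrict (ball (0 : E) δ)
  have my := (memLp_shift hf y).restrict (ball (0 : E) δ)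
  rw [avg, avg, ← smul_sub, ← integral_sub (mx.integrable (by norm_num)) (my.integrable (by norm_num)),
    norm_smul, mul_pow, Real.norm_eq_abs, sq_abs, ← hM]
  have h1 := sq_integral_le (mx.sub my)
  simp only [measureReal_restrict_apply_univ, Pi.sub_apply, ← hM] at h1
  have h2 : ∫ h in ball 0 δ, ‖f (x + h) - f (y + h)‖ ^ 2 ∂μ ≤ C * ‖x - y‖ ^ 2 := by
    refine (setIntegral_le_integral (((memLp_shift hf x).sub (memLp_shift hf y)).integrable_norm_pow
      two_ne_zero) (Eventually.of_forall fun _ => sq_nonneg _)).trans ?_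
    refine le_trans (le_of_eq ?_) (hs (x - y))
    simp only [Pi.sub_apply]
    rw [← integral_add_left_eq_self (fun h => ‖f (h + (x - y)) - f h‖ ^ 2) y]
    refine integral_congr_ae (Eventually.of_forall fun h => ?_)
    simp only
    rw [show y + h + (x - y) = x + h by abel]
  calc M⁻¹ ^ 2 * ‖∫ h in ball 0 δ, f (x + h) - f (y + h) ∂μ‖ ^ 2
      ≤ M⁻¹ ^ 2 * (M * (C * ‖x - y‖ ^ 2)) :=
        mul_le_mul_of_nonneg_left (h1.trans (mul_le_mul_of_nonneg_left h2 hM0.le)) (sq_nonneg _)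
    _ = M⁻¹ * (C * ‖x - y‖ ^ 2) := by field_simp

lemma avg_bound {f : E → F} (hf : MemLp f 2 μ) {C : ℝ}
    (hb : ∫ y, ‖f y‖ ^ 2 ∂μ ≤ C) {δ : ℝ} (hδ : 0 < δ) (x : E) :
    ‖avg μ δ f x‖ ^ 2 ≤ (μ.real (ball (0 : E) δ))⁻¹ * C := by
  set M := μ.real (ball (0 : E) δ) with hM
  have hM0 : 0 < M := ball_real_pos hδ
  have : IsFiniteMeasure (μ.restrict (ball (0 : E) δ)) :=
    ⟨by simpa using measure_ball_lt_top⟩
  rw [avg, norm_smul, mul_pow, Real.norm_eq_abs, sq_abs, ← hM]
  have h1 := sq_integral_le ((memLp_shift hf x).restrict (ball (0 : E) δ))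
  simp only [measureReal_restrict_apply_univ, ← hM] at h1
  have h2 : ∫ h in ball 0 δ, ‖f (x + h)‖ ^ 2 ∂μ ≤ C :=
    (setIntegral_le_integral ((memLp_shift hf x).integrable_norm_pow two_ne_zero)
      (Eventually.of_forall fun _ => sq_nonneg _)).trans
      (le_of_eq_of_le (integral_add_left_eq_self (fun h => ‖f h‖ ^ 2) x) hb)
  calc M⁻¹ ^ 2 * ‖∫ h in ball 0 δ, f (x + h) ∂μ‖ ^ 2
      ≤ M⁻¹ ^ 2 * (M * C) :=
        mul_le_mul_of_nonneg_left (h1.trans (mul_le_mul_of_nonneg_left h2 hM0.le)) (sq_nonneg _)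
    _ = M⁻¹ * C := by field_simp

lemma avg_continuous {f : E → F} (hf : MemLp f 2 μ) {C : ℝ}
    (hs : ∀ h, ∫ y, ‖f (y + h) - f y‖ ^ 2 ∂μ ≤ C * ‖h‖ ^ 2) {δ : ℝ} (hδ : 0 < δ) :
    Continuous (avg μ δ f) := by
  refine (LipschitzWith.of_dist_le' (K := Real.sqrt ((μ.real (ball (0 : E) δ))⁻¹ * |C|))
    fun x y => ?_).continuous
  rw [dist_eq_norm, dist_eq_norm, ← Real.sqrt_sq (norm_nonneg (avg μ δ f x - avg μ δ f y)),
    ← Real.sqrt_sq (norm_nonneg (x - y)), ← Real.sqrt_mul (by positivity)]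
  refine Real.sqrt_le_sqrt ((avg_lip hf hs hδ x y).trans ?_)
  rw [mul_assoc]
  gcongr
  exact le_abs_self C

lemma avg_close [CompleteSpace F] [SecondCountableTopology F] {f : E → F}
    (hfm : StronglyMeasurable f) (hf : MemLp f 2 μ) {C : ℝ}
    (hs : ∀ h, ∫ y, ‖f (y + h) - f y‖ ^ 2 ∂μ ≤ C * ‖h‖ ^ 2) {δ : ℝ} (hδ : 0 < δ) (hC : 0 ≤ C) :
    ∫⁻ x, ‖avg μ δ f x - f x‖ₑ ^ 2 ∂μ ≤ ENNReal.ofReal (C * δ ^ 2) := by
  set M := μ.real (ball (0 : E) δ) with hM
  have hM0 : 0 < M := ball_real_pos hδ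
  have : IsFiniteMeasure (μ.restrict (ball (0 : E) δ)) :=
    ⟨by simpa using measure_ball_lt_top⟩
  have hpt : ∀ x, ‖avg μ δ f x - f x‖ₑ ^ 2 ≤
      ENNReal.ofReal M⁻¹ * ∫⁻ h in ball 0 δ, ‖f (x + h) - f x‖ₑ ^ 2 ∂μ := by
    intro x
    have mx := (memLp_shift hf x).restrict (ball (0 : E) δ)
    have md := mx.sub (memLp_const (f x))
    have e : avg μ δ f x - f x = M⁻¹ • ∫ h in ball 0 δ, f (x + h) - f x ∂μ := by
      rw [avg, ← hM, integral_sub (mx.integrable (by norm_num)) (integrable_const _), integral_const,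
        smul_sub, measureReal_restrict_apply_univ, smul_smul, ← hM, inv_mul_cancel₀ hM0.ne',
        one_smul]
    have h1 := sq_integral_le md
    simp only [measureReal_restrict_apply_univ, Pi.sub_apply, ← hM] at h1
    have h2 : ‖avg μ δ f x - f x‖ ^ 2 ≤ M⁻¹ * ∫ h in ball 0 δ, ‖f (x + h) - f x‖ ^ 2 ∂μ := by
      rw [e, norm_smul, mul_pow, Real.norm_eq_abs, sq_abs]
      calc _ ≤ M⁻¹ ^ 2 * (M * ∫ h in ball 0 δ, ‖f (x + h) - f x‖ ^ 2 ∂μ) :=
            mul_le_mul_of_nonneg_left h1 (sq_nonneg _)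
        _ = _ := by field_simp
    rw [← ofReal_norm, ← ENNReal.ofReal_pow (norm_nonneg _)]
    refine (ENNReal.ofReal_le_ofReal h2).trans (le_of_eq ?_)
    have hmi : IntegrableOn (fun h => ‖f (x + h) - f x‖ ^ 2) (ball 0 δ) μ :=
      md.integrable_norm_pow two_ne_zero
    rw [ENNReal.ofReal_mul (inv_nonneg.2 hM0.le),
      ofReal_integral_eq_lintegral_ofReal hmi
        (Eventually.of_forall fun _ => sq_nonneg _)]
    simp only [ENNReal.ofReal_pow (norm_nonneg _), ofReal_norm]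
  have hmeas : Measurable fun p : E × E => ‖f (p.1 + p.2) - f p.1‖ₑ ^ 2 := by
    have h1 : StronglyMeasurable fun p : E × E => f (p.1 + p.2) :=
      hfm.comp_measurable (measurable_fst.add measurable_snd)
    exact ((h1.sub (hfm.comp_measurable measurable_fst)).enorm).pow_const 2
  refine (lintegral_mono hpt).trans ?_
  rw [lintegral_const_mul' _ _ ENNReal.ofReal_ne_top,
    lintegral_lintegral_swap hmeas.aemeasurable]
  have hin : ∀ h ∈ ball (0 : E) δ, ∫⁻ x, ‖f (x + h) - f x‖ₑ ^ 2 ∂μ ≤ ENNReal.ofReal (C * δ ^ 2) := by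
    intro h hh
    have hi : Integrable (fun x => ‖f (x + h) - f x‖ ^ 2) μ :=
      ((hf.comp_measurePreserving (measurePreserving_add_right μ h)).sub hf).integrable_norm_pow
        two_ne_zero
    have hn : ‖h‖ ≤ δ := (mem_ball_zero_iff.1 hh).le
    refine le_trans (le_of_eq ?_) (ENNReal.ofReal_le_ofReal ((hs h).trans
      (mul_le_mul_of_nonneg_left (pow_le_pow_left₀ (norm_nonneg _) hn 2) hC)))
    rw [ofReal_integral_eq_lintegral_ofReal hi (Eventually.of_forall fun _ => sq_nonneg _)]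
    simp only [ENNReal.ofReal_pow (norm_nonneg _), ofReal_norm]
  refine (mul_le_mul_right (setLIntegral_mono measurable_const hin) _).trans (le_of_eq ?_)
  rw [setLIntegral_const, ← ofReal_measureReal measure_ball_lt_top.ne, ← hM,
    mul_left_comm, ← ENNReal.ofReal_mul (inv_nonneg.2 hM0.le), inv_mul_cancel₀ hM0.ne',
    ENNReal.ofReal_one, mul_one]

lemma close_integral {f g : E → F} {s : Set E} {c : ℝ} (hc : 0 ≤ c)
    (hi : IntegrableOn (fun x => ‖f x - g x‖ ^ 2) s μ)
    (h : ∫⁻ x, ‖f x - g x‖ₑ ^ 2 ∂μ ≤ ENNReal.ofReal c) :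
    ∫ x in s, ‖f x - g x‖ ^ 2 ∂μ ≤ c := by
  rw [← ENNReal.ofReal_le_ofReal_iff hc,
    ofReal_integral_eq_lintegral_ofReal hi (Eventually.of_forall fun _ => sq_nonneg _)]
  simp only [ENNReal.ofReal_pow (norm_nonneg _), ofReal_norm]
  exact (setLIntegral_le_lintegral _ _).trans h

/-- Two functions whose averages nearly agree on a net are close on a ball. -/
lemma ball_close [CompleteSpace F] [SecondCountableTopology F] {f f' : E → F}
    (hfm : StronglyMeasurable f) (hfm' : StronglyMeasurable f') (hf : MemLp f 2 μ)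
    (hf' : MemLp f' 2 μ) {C : ℝ} (hC : 0 ≤ C)
    (hs : ∀ h, ∫ y, ‖f (y + h) - f y‖ ^ 2 ∂μ ≤ C * ‖h‖ ^ 2)
    (hs' : ∀ h, ∫ y, ‖f' (y + h) - f' y‖ ^ 2 ∂μ ≤ C * ‖h‖ ^ 2) {δ : ℝ} (hδ : 0 < δ) {R a : ℝ}
    (hd : ∀ x ∈ closedBall (0 : E) R, ‖avg μ δ f x - avg μ δ f' x‖ ^ 2 ≤ a) :
    ∫ x in closedBall 0 R, ‖f x - f' x‖ ^ 2 ∂μ ≤
      3 * (C * δ ^ 2) + 3 * (μ.real (closedBall (0 : E) R) * a) + 3 * (C * δ ^ 2) := by
  set s := closedBall (0 : E) R
  have : IsFiniteMeasure (μ.restrict s) :=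
    ⟨by simpa using (isCompact_closedBall (0 : E) R).measure_lt_top⟩
  have hA := avg_continuous hf hs hδ
  have hA' := avg_continuous hf' hs' hδ
  have hcpt := isCompact_closedBall (0 : E) R
  have mA : MemLp (avg μ δ f) 2 (μ.restrict s) := by
    obtain ⟨B, hB⟩ := hcpt.exists_bound_of_continuousOn hA.continuousOn
    exact MemLp.of_bound hA.aestronglyMeasurable B (ae_restrict_of_forall_mem
      hcpt.measurableSet hB)
  have mA' : MemLp (avg μ δ f') 2 (μ.restrict s) := by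
    obtain ⟨B, hB⟩ := hcpt.exists_bound_of_continuousOn hA'.continuousOn
    exact MemLp.of_bound hA'.aestronglyMeasurable B (ae_restrict_of_forall_mem
      hcpt.measurableSet hB)
  have i1 : IntegrableOn (fun x => ‖avg μ δ f x - f x‖ ^ 2) s μ :=
    (mA.sub (hf.restrict s)).integrable_norm_pow two_ne_zero
  have i2 : IntegrableOn (fun x => ‖avg μ δ f x - avg μ δ f' x‖ ^ 2) s μ :=
    (mA.sub mA').integrable_norm_pow two_ne_zero
  have i3 : IntegrableOn (fun x => ‖avg μ δ f' x - f' x‖ ^ 2) s μ :=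
    (mA'.sub (hf'.restrict s)).integrable_norm_pow two_ne_zero
  have hc : 0 ≤ C * δ ^ 2 := by positivity
  have t1 := close_integral hc i1 (avg_close hfm hf hs hδ hC)
  have t3 := close_integral hc i3 (avg_close hfm' hf' hs' hδ hC)
  have t2 : ∫ x in s, ‖avg μ δ f x - avg μ δ f' x‖ ^ 2 ∂μ ≤ μ.real s * a := by
    refine (setIntegral_mono_on i2 (integrable_const a) hcpt.measurableSet hd).trans (le_of_eq ?_)
    rw [setIntegral_const, smul_eq_mul]
  refine (integral_mono_of_nonneg (Eventually.of_forall fun _ => sq_nonneg _)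
    (((i1.const_mul 3).add (i2.const_mul 3)).add (i3.const_mul 3))
    (Eventually.of_forall fun x => ?_)).trans ?_
  · simp only [Pi.add_apply]
    have h1 : ‖f x - f' x‖ ≤ ‖avg μ δ f x - f x‖ + ‖avg μ δ f x - avg μ δ f' x‖ +
        ‖avg μ δ f' x - f' x‖ := by
      have e : f x - f' x = -(avg μ δ f x - f x) + (avg μ δ f x - avg μ δ f' x) +
          (avg μ δ f' x - f' x) := by abel
      rw [e]
      refine (norm_add₃_le).trans (le_of_eq ?_)
      rw [norm_neg]
    have h0 := pow_le_pow_left₀ (norm_nonneg _) h1 2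
    nlinarith [sq_nonneg (‖avg μ δ f x - f x‖ - ‖avg μ δ f x - avg μ δ f' x‖),
      sq_nonneg (‖avg μ δ f x - avg μ δ f' x‖ - ‖avg μ δ f' x - f' x‖),
      sq_nonneg (‖avg μ δ f x - f x‖ - ‖avg μ δ f' x - f' x‖)]
  · simp only [Pi.add_apply]
    rw [integral_add (f := fun x => 3 * ‖avg μ δ f x - f x‖ ^ 2 +
        3 * ‖avg μ δ f x - avg μ δ f' x‖ ^ 2) ((i1.const_mul 3).add (i2.const_mul 3))
        (i3.const_mul 3),
      integral_add (i1.const_mul 3) (i2.const_mul 3), integral_const_mul, integral_const_mul,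
      integral_const_mul]
    linarith

/-- The weighted measure. -/
def wt (μ : Measure E) : Measure E := μ.withDensity fun x => ENNReal.ofReal (Real.exp (-‖x‖))

lemma wt_le (μ : Measure E) : wt μ ≤ μ := by
  refine (withDensity_mono (Eventually.of_forall fun x => ?_)).trans_eq withDensity_one
  simp

lemma restrict_le_wt (R : ℝ) :
    μ.restrict (closedBall (0 : E) R) ≤ ENNReal.ofReal (Real.exp R) • wt μ := by
  refine Measure.le_intro fun s hs _ => ?_
  rw [Measure.restrict_apply hs, Measure.smul_apply, wt, withDensity_apply _ hs, smul_eq_mul,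
    ← lintegral_const_mul' _ _ ENNReal.ofReal_ne_top]
  refine le_trans ?_ (lintegral_mono_set (Set.inter_subset_left (t := closedBall (0 : E) R)))
  rw [← setLIntegral_one]
  refine setLIntegral_mono (by fun_prop) fun x hx => ?_
  rw [← ENNReal.ofReal_mul (Real.exp_pos _).le, ← Real.exp_add, ENNReal.one_le_ofReal,
    Real.one_le_exp_iff]
  linarith [mem_closedBall_zero_iff.1 hx.2]

lemma wt_integral_le {f : E → F} (hf : MemLp f 2 μ) {R : ℝ} :
    ∫ x, ‖f x‖ ^ 2 ∂wt μ ≤ (∫ x in closedBall 0 R, ‖f x‖ ^ 2 ∂μ) +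
      Real.exp (-R) * ∫ x, ‖f x‖ ^ 2 ∂μ := by
  have hi : Integrable (fun x => ‖f x‖ ^ 2) μ := hf.integrable_norm_pow two_ne_zero
  have hw : ∫ x, ‖f x‖ ^ 2 ∂wt μ = ∫ x, Real.exp (-‖x‖) * ‖f x‖ ^ 2 ∂μ := by
    rw [wt, integral_withDensity_eq_integral_toReal_smul (by fun_prop)
      (Eventually.of_forall fun _ => ENNReal.ofReal_lt_top)]
    simp [ENNReal.toReal_ofReal (Real.exp_pos _).le]
  rw [hw, ← integral_indicator measurableSet_closedBall, ← integral_const_mul,
    ← integral_add (hi.indicator measurableSet_closedBall) (hi.const_mul _)]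
  refine integral_mono_of_nonneg (Eventually.of_forall fun x => by positivity)
    ((hi.indicator measurableSet_closedBall).add (hi.const_mul _))
    (Eventually.of_forall fun x => ?_)
  beta_reduce
  by_cases hx : x ∈ closedBall (0 : E) R
  · rw [Set.indicator_of_mem hx]
    have h1 := mul_le_of_le_one_left (sq_nonneg ‖f x‖) (Real.exp_le_one_iff.2 (neg_nonpos.2 (norm_nonneg x)))
    have h2 : 0 ≤ Real.exp (-R) * ‖f x‖ ^ 2 := by positivity
    linarith
  · rw [Set.indicator_of_notMem hx, zero_add]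
    refine mul_le_mul_of_nonneg_right (Real.exp_le_exp.2 (neg_le_neg ?_)) (sq_nonneg _)
    exact (not_le.1 fun h => hx (mem_closedBall_zero_iff.2 h)).le

end CompactAux

open CompactAux in
theorem compact_L2 : CompactL2Stmt := by
  intro E F _ _ _ _ _ μ _ _ _ _ f C hf hb hs
  have hC : 0 ≤ C := (integral_nonneg fun x => sq_nonneg _).trans (hb 0)
  set f' : ℕ → E → F := fun k => (hf k).1.mk (f k)
  have hae : ∀ k, f k =ᵐ[μ] f' k := fun k => (hf k).1.ae_eq_mk
  have hm : ∀ k, StronglyMeasurable (f' k) := fun k => (hf k).1.stronglyMeasurable_mk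
  have hf' : ∀ k, MemLp (f' k) 2 μ := fun k => (hf k).ae_eq (hae k)
  have hb' : ∀ k, ∫ x, ‖f' k x‖ ^ 2 ∂μ ≤ C := fun k => le_of_eq_of_le
    (integral_congr_ae ((hae k).mono fun x hx => by simp only [hx])) (hb k)
  have hs' : ∀ k h, ∫ x, ‖f' k (x + h) - f' k x‖ ^ 2 ∂μ ≤ C * ‖h‖ ^ 2 := fun k h => by
    refine le_of_eq_of_le (integral_congr_ae ?_) (hs k h)
    filter_upwards [hae k, (measurePreserving_add_right μ h).quasiMeasurePreserving.ae (hae k)]
      with x h1 h2
    rw [h1, h2]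
  have hw : ∀ k, MemLp (f' k) 2 (wt μ) := fun k => (hf' k).mono_measure (wt_le μ)
  set P : ℕ → Lp F 2 (wt μ) := fun k => (hw k).toLp (f' k)
  have hPd : ∀ k l, dist (P k) (P l) ^ 2 = ∫ x, ‖f' k x - f' l x‖ ^ 2 ∂wt μ := by
    intro k l
    rw [dist_eq_norm, ← MemLp.toLp_sub, Lp.norm_toLp,
      MemLp.eLpNorm_eq_integral_rpow_norm two_ne_zero ENNReal.ofNat_ne_top ((hw k).sub (hw l))]
    simp only [ENNReal.toReal_ofNat, Real.rpow_two, Pi.sub_apply]
    rw [ENNReal.toReal_ofReal (by positivity), ← Real.rpow_natCast (_ ^ _) 2,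
      ← Real.rpow_mul (integral_nonneg fun x => sq_nonneg _)]
    norm_num
  have htb : TotallyBounded (Set.range P) := by
    refine totallyBounded_of_finite_discretization fun ε hε => ?_
    set e := ε ^ 2 / 2 with he
    have he0 : 0 < e := by positivity
    obtain ⟨R, hR⟩ : ∃ R : ℝ, Real.exp (-R) * (4 * C) ≤ e / 4 := by
      have ht : Tendsto (fun R : ℝ => Real.exp (-R) * (4 * C)) atTop (𝓝 0) := by
        simpa using Real.tendsto_exp_neg_atTop_nhds_zero.mul_const (4 * C)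
      exact (ht.eventually_le_const (by positivity : (0 : ℝ) < e / 4)).exists
    obtain ⟨δ, hδ, hδe⟩ : ∃ δ : ℝ, 0 < δ ∧ 6 * (C * δ ^ 2) ≤ e / 4 := by
      have ht : Tendsto (fun δ : ℝ => 6 * (C * δ ^ 2)) (𝓝[>] 0) (𝓝 0) :=
        tendsto_nhdsWithin_of_tendsto_nhds (by
          have hc : Continuous fun δ : ℝ => 6 * (C * δ ^ 2) := by fun_prop
          simpa using hc.tendsto 0)
      exact ((eventually_mem_nhdsWithin (s := Set.Ioi (0 : ℝ))).and
        (ht.eventually_le_const (by positivity : (0 : ℝ) < e / 4))).exists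
    set s := closedBall (0 : E) R
    set V := μ.real s
    set M := μ.real (ball (0 : E) δ)
    have hM : 0 < M := ball_real_pos hδ
    have hV : 0 ≤ V := measureReal_nonneg
    set a := e / (4 * (3 * V + 1))
    have ha : 0 < a := by positivity
    obtain ⟨η, hη, hηa⟩ : ∃ η : ℝ, 0 < η ∧ 9 * (M⁻¹ * (C * η ^ 2)) + 3 * η ^ 2 ≤ a := by
      have ht : Tendsto (fun η : ℝ => 9 * (M⁻¹ * (C * η ^ 2)) + 3 * η ^ 2) (𝓝[>] 0) (𝓝 0) :=
        tendsto_nhdsWithin_of_tendsto_nhds (by
          have hc : Continuous fun η : ℝ => 9 * (M⁻¹ * (C * η ^ 2)) + 3 * η ^ 2 := by fun_prop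
          simpa using hc.tendsto 0)
      exact ((eventually_mem_nhdsWithin (s := Set.Ioi (0 : ℝ))).and (ht.eventually_le_const ha)).exists
    obtain ⟨net, -, hnet⟩ := (isCompact_closedBall (0 : E) R).elim_nhds_subcover
      (fun x => ball x η) fun x _ => ball_mem_nhds x hη
    set v : ℕ → (net → F) := fun k i => avg μ δ (f' k) i
    have hv : Set.range v ⊆ closedBall (0 : net → F) (Real.sqrt (M⁻¹ * C)) := by
      rintro _ ⟨k, rfl⟩
      rw [mem_closedBall_zero_iff, pi_norm_le_iff_of_nonneg (Real.sqrt_nonneg _)]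
      exact fun i => Real.le_sqrt_of_sq_le (avg_bound (hf' k) (hb' k) hδ i)
    obtain ⟨T, -, hT, hTc⟩ := finite_cover_balls_of_compact
      (isCompact_closedBall (0 : net → F) (Real.sqrt (M⁻¹ * C))) (half_pos hη)
    have hpick : ∀ y : ↥(Set.range P), ∃ k, P k = y ∧ ∃ c : T, v k ∈ ball (c : net → F) (η / 2) := by
      rintro ⟨_, k, rfl⟩
      obtain ⟨c, hc, hc'⟩ := Set.mem_iUnion₂.1 (hTc (hv ⟨k, rfl⟩))
      exact ⟨k, rfl, ⟨c, hc⟩, hc'⟩
    choose κ hκ c hc using hpick
    have := hT.fintype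
    refine ⟨T, inferInstance, c, fun x y hxy => ?_⟩
    rw [← hκ x, ← hκ y]
    set k := κ x
    set l := κ y
    have hvd : ∀ i : net, ‖avg μ δ (f' k) i - avg μ δ (f' l) i‖ ≤ η := fun i => by
      have h1 := hc x
      rw [hxy] at h1
      have h3 := dist_triangle_right (v k) (v l) (c y : net → F)
      rw [mem_ball] at h1
      have h2 := mem_ball.1 (hc y)
      rw [← dist_eq_norm]
      exact (dist_le_pi_dist (v k) (v l) i).trans (by linarith)
    have hd : ∀ x ∈ s, ‖avg μ δ (f' k) x - avg μ δ (f' l) x‖ ^ 2 ≤ a := by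
      intro z hz
      obtain ⟨i, hi, hzi⟩ := Set.mem_iUnion₂.1 (hnet hz)
      have hzi' : ‖z - i‖ ^ 2 ≤ η ^ 2 :=
        pow_le_pow_left₀ (norm_nonneg _) (mem_ball_iff_norm.1 hzi).le 2
      have b1 := avg_lip (hf' k) (hs' k) hδ z i
      have b3 := avg_lip (hf' l) (hs' l) hδ z i
      have b2 : ‖avg μ δ (f' k) i - avg μ δ (f' l) i‖ ^ 2 ≤ η ^ 2 :=
        pow_le_pow_left₀ (norm_nonneg _) (hvd ⟨i, hi⟩) 2
      have b4 : M⁻¹ * (C * ‖z - i‖ ^ 2) ≤ M⁻¹ * (C * η ^ 2) := by gcongr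
      have h1 : ‖avg μ δ (f' k) z - avg μ δ (f' l) z‖ ≤ ‖avg μ δ (f' k) z - avg μ δ (f' k) i‖ +
          ‖avg μ δ (f' k) i - avg μ δ (f' l) i‖ + ‖avg μ δ (f' l) z - avg μ δ (f' l) i‖ := by
        rw [norm_sub_rev (avg μ δ (f' l) z) _]
        exact (norm_sub_le_norm_sub_add_norm_sub _ (avg μ δ (f' l) i) _).trans
          (add_le_add (norm_sub_le_norm_sub_add_norm_sub _ (avg μ δ (f' k) i) _) le_rfl)
      have h0 := pow_le_pow_left₀ (norm_nonneg _) h1 2
      nlinarith [sq_nonneg (‖avg μ δ (f' k) z - avg μ δ (f' k) i‖ -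
          ‖avg μ δ (f' k) i - avg μ δ (f' l) i‖),
        sq_nonneg (‖avg μ δ (f' k) i - avg μ δ (f' l) i‖ - ‖avg μ δ (f' l) z - avg μ δ (f' l) i‖),
        sq_nonneg (‖avg μ δ (f' k) z - avg μ δ (f' k) i‖ - ‖avg μ δ (f' l) z - avg μ δ (f' l) i‖)]
    have hball := ball_close (hm k) (hm l) (hf' k) (hf' l) hC (hs' k) (hs' l) hδ hd
    have htot : ∫ x, ‖f' k x - f' l x‖ ^ 2 ∂μ ≤ 4 * C := by
      have i1 := (hf' k).integrable_norm_pow two_ne_zero
      have i2 := (hf' l).integrable_norm_pow two_ne_zero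
      refine (integral_mono_of_nonneg (Eventually.of_forall fun _ => sq_nonneg _)
        ((i1.const_mul 2).add (i2.const_mul 2)) (Eventually.of_forall fun z => ?_)).trans ?_
      · simp only [Pi.add_apply]
        have := pow_le_pow_left₀ (norm_nonneg _) (norm_sub_le (f' k z) (f' l z)) 2
        nlinarith [sq_nonneg (‖f' k z‖ - ‖f' l z‖)]
      · simp only [Pi.add_apply]
        rw [integral_add (i1.const_mul 2) (i2.const_mul 2), integral_const_mul, integral_const_mul]
        linarith [hb' k, hb' l]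
    have hfin := wt_integral_le ((hf' k).sub (hf' l)) (R := R)
    simp only [Pi.sub_apply] at hfin
    have hVa : 3 * (V * a) ≤ e / 4 := by
      have e2 : 3 * (V * a) = e / 4 * ((3 * V) / (3 * V + 1)) := by
        simp only [a]; field_simp
      rw [e2]
      exact mul_le_of_le_one_right (by positivity) ((div_le_one (by positivity)).2 (by linarith))
    have hexp := mul_le_mul_of_nonneg_left htot (Real.exp_pos (-R)).le
    have : dist (P k) (P l) ^ 2 < ε ^ 2 := by
      rw [hPd]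
      have : e < ε ^ 2 := by rw [he]; linarith [pow_pos hε 2]
      linarith
    exact lt_of_pow_lt_pow_left₀ 2 hε.le this
  obtain ⟨G, -, φ, hφ, hlim⟩ :=
    (htb.closure.isCompact_of_isClosed isClosed_closure).tendsto_subseq
      (x := P) fun k => subset_closure ⟨k, rfl⟩
  set g : E → F := ⇑G
  have hg : MemLp g 2 (wt μ) := Lp.memLp G
  have hconv : ∀ R : ℝ,
      Tendsto (fun k => ∫ x in closedBall 0 R, ‖f (φ k) x - g x‖ ^ 2 ∂μ) atTop (𝓝 0) := by
    intro R
    have h0 : Tendsto (fun k => ∫ x, ‖f' (φ k) x - g x‖ ^ 2 ∂wt μ) atTop (𝓝 0) := by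
      have h := ((tendsto_iff_dist_tendsto_zero.1 hlim).pow 2)
      rw [zero_pow two_ne_zero] at h
      refine h.congr fun k => ?_
      simp only [Function.comp_apply]
      have hG : G = hg.toLp g := (Lp.toLp_coeFn G hg).symm
      rw [hG, dist_eq_norm, ← MemLp.toLp_sub, Lp.norm_toLp,
        MemLp.eLpNorm_eq_integral_rpow_norm two_ne_zero ENNReal.ofNat_ne_top ((hw (φ k)).sub hg)]
      simp only [ENNReal.toReal_ofNat, Real.rpow_two, Pi.sub_apply]
      rw [ENNReal.toReal_ofReal (by positivity), ← Real.rpow_natCast (_ ^ _) 2,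
        ← Real.rpow_mul (integral_nonneg fun x => sq_nonneg _)]
      norm_num
    refine squeeze_zero (fun k => integral_nonneg fun _ => sq_nonneg _) (fun k => ?_)
      (by simpa using h0.const_mul (Real.exp R))
    have hi : Integrable (fun x => ‖f' (φ k) x - g x‖ ^ 2) (ENNReal.ofReal (Real.exp R) • wt μ) :=
      (((hw (φ k)).sub hg).integrable_norm_pow two_ne_zero).smul_measure ENNReal.ofReal_ne_top
    have e1 : ∫ x in closedBall 0 R, ‖f (φ k) x - g x‖ ^ 2 ∂μ =
        ∫ x in closedBall 0 R, ‖f' (φ k) x - g x‖ ^ 2 ∂μ :=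
      integral_congr_ae ((ae_restrict_of_ae (hae (φ k))).mono fun x hx => by simp only [hx])
    rw [e1]
    refine (integral_mono_measure (restrict_le_wt R) (Eventually.of_forall fun _ => sq_nonneg _)
      hi).trans (le_of_eq ?_)
    rw [integral_smul_measure, ENNReal.toReal_ofReal (Real.exp_pos _).le, smul_eq_mul]
  have hgR : ∀ R : ℝ, MemLp g 2 (μ.restrict (closedBall 0 R)) := fun R =>
    (hg.smul_measure ENNReal.ofReal_ne_top).mono_measure (restrict_le_wt R)
  have hgC : ∀ R : ℝ, ∫ x in closedBall 0 R, ‖g x‖ ^ 2 ∂μ ≤ C := by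
    intro R
    have step : ∀ t : ℝ, 0 < t → ∫ x in closedBall 0 R, ‖g x‖ ^ 2 ∂μ ≤ (1 + t) * C := by
      intro t ht
      have hlim2 := ((hconv R).const_mul (1 + 1 / t)).const_add ((1 + t) * C)
      rw [mul_zero, add_zero] at hlim2
      refine ge_of_tendsto' hlim2 fun k => ?_
      have i1 := ((hf (φ k)).restrict (closedBall (0 : E) R)).integrable_norm_pow two_ne_zero
      have i2 := (((hf (φ k)).restrict (closedBall (0 : E) R)).sub (hgR R)).integrable_norm_pow
        two_ne_zero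
      simp only [Pi.sub_apply] at i2
      refine (integral_mono_of_nonneg (Eventually.of_forall fun _ => sq_nonneg _)
        ((i1.const_mul (1 + t)).add (i2.const_mul (1 + 1 / t)))
        (Eventually.of_forall fun z => ?_)).trans ?_
      · simp only [Pi.add_apply]
        have h1 : ‖g z‖ ≤ ‖f (φ k) z‖ + ‖f (φ k) z - g z‖ := by
          calc ‖g z‖ = ‖f (φ k) z - (f (φ k) z - g z)‖ := by rw [sub_sub_cancel]
            _ ≤ _ := norm_sub_le _ _
        have h2 := pow_le_pow_left₀ (norm_nonneg _) h1 2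
        have h3 : 2 * ‖f (φ k) z‖ * ‖f (φ k) z - g z‖ ≤
            t * ‖f (φ k) z‖ ^ 2 + 1 / t * ‖f (φ k) z - g z‖ ^ 2 := by
          rw [one_div, inv_mul_eq_div, ← sub_le_iff_le_add', le_div_iff₀ ht]
          nlinarith [sq_nonneg (t * ‖f (φ k) z‖ - ‖f (φ k) z - g z‖)]
        nlinarith
      · simp only [Pi.add_apply]
        rw [integral_add (i1.const_mul _) (i2.const_mul _), integral_const_mul, integral_const_mul]
        refine add_le_add (mul_le_mul_of_nonneg_left ?_ (by linarith)) le_rfl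
        exact (setIntegral_le_integral ((hf (φ k)).integrable_norm_pow two_ne_zero)
          (Eventually.of_forall fun _ => sq_nonneg _)).trans (hb (φ k))
    refine le_of_forall_pos_le_add fun d hd => ?_
    have := step (d / (C + 1)) (by positivity)
    have h2 : d / (C + 1) * C ≤ d := by
      rw [div_mul_eq_mul_div, div_le_iff₀ (by positivity)]; nlinarith
    linarith
  have hsm : StronglyMeasurable g := Lp.stronglyMeasurable G
  have hl : ∫⁻ x, ‖g x‖ₑ ^ 2 ∂μ ≤ ENNReal.ofReal C := by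
    rw [← setLIntegral_univ, ← iUnion_closedBall_nat (0 : E),
      setLIntegral_iUnion_of_directed _ (Monotone.directed_le fun a b hab =>
        closedBall_subset_closedBall (Nat.cast_le.2 hab))]
    refine iSup_le fun n => le_trans (le_of_eq ?_) (ENNReal.ofReal_le_ofReal (hgC n))
    rw [ofReal_integral_eq_lintegral_ofReal ((hgR n).integrable_norm_pow two_ne_zero)
      (Eventually.of_forall fun _ => sq_nonneg _)]
    simp only [ENNReal.ofReal_pow (norm_nonneg _), ofReal_norm]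
  have hgμ : MemLp g 2 μ := ⟨hsm.aestronglyMeasurable, by
    rw [eLpNorm_lt_top_iff_lintegral_rpow_enorm_lt_top two_ne_zero ENNReal.ofNat_ne_top]
    simpa using hl.trans_lt ENNReal.ofReal_lt_top⟩
  refine ⟨φ, g, hφ, hgμ, ?_, hconv⟩
  rw [← ENNReal.ofReal_le_ofReal_iff hC, ofReal_integral_eq_lintegral_ofReal
    (hgμ.integrable_norm_pow two_ne_zero) (Eventually.of_forall fun _ => sq_nonneg _)]
  simpa only [ENNReal.ofReal_pow (norm_nonneg _), ofReal_norm] using hl

end Vale.Agent.P363
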