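import Vale.Agent.P363.Tool.Sobolev.Compact

/-!
P363: translations of Lipschitz functions of compact support are controlled by the derivative.
-/

noncomputable section

namespace Vale.Agent.P363

open MeasureTheory Filter
open scoped BigOperators Topology ENNReal NNReal

/-- A line segment costs at most the mean square of the derivative along it. -/
lemma segment_sq_le {E F : Type} [NormedAddCommGroup E] [NormedSpace ℝ E]
    [FiniteDimensional ℝ E] [MeasurableSpace E] [BorelSpace E] [NormedAddCommGroup F]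
    [NormedSpace ℝ F] [FiniteDimensional ℝ F] {f : E → F} {K : ℝ≥0} (hf : LipschitzWith K f)
    {x h : E} (hd : ∀ᵐ t : ℝ ∂volume.restrict (Set.Ioc 0 1), DifferentiableAt ℝ f (x + t • h)) :
    ‖f (x + h) - f x‖ ^ 2 ≤
      ‖h‖ ^ 2 * ∫ t : ℝ in Set.Ioc 0 1, ‖fderiv ℝ f (x + t • h)‖ ^ 2 := by
  have : CompleteSpace F := FiniteDimensional.complete ℝ F
  set ν : Measure ℝ := volume.restrict (Set.Ioc 0 1) with hν
  have : IsFiniteMeasure ν := ⟨by simp [hν]⟩
  have hm : Measurable fun t : ℝ => ‖fderiv ℝ f (x + t • h)‖ :=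
    ((measurable_fderiv ℝ f).comp (by fun_prop)).norm
  have hD : MemLp (fun t : ℝ => ‖fderiv ℝ f (x + t • h)‖) 2 ν :=
    MemLp.of_bound hm.aestronglyMeasurable K (Eventually.of_forall fun t => by
      rw [norm_norm]; exact norm_fderiv_le_of_lipschitz ℝ hf)
  obtain ⟨φ, hφ, hφv⟩ := exists_dual_vector'' ℝ (f (x + h) - f x)
  set u : ℝ → ℝ := fun t => φ (f (x + t • h)) with hu
  have hline : LipschitzWith ‖h‖₊ fun t : ℝ => x + t • h :=
    LipschitzWith.of_dist_le_mul fun s t => by
      rw [dist_add_left, dist_eq_norm, dist_eq_norm, ← sub_smul, norm_smul, coe_nnnorm, mul_comm]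
  have hac : AbsolutelyContinuousOnInterval u 0 1 :=
    ((φ.lipschitz.comp (hf.comp hline)).lipschitzOnWith).absolutelyContinuousOnInterval
  have hle : ‖f (x + h) - f x‖ ≤ ‖h‖ * ∫ t : ℝ in Set.Ioc 0 1, ‖fderiv ℝ f (x + t • h)‖ := by
    have e : ‖f (x + h) - f x‖ = ∫ t in (0 : ℝ)..1, deriv u t := by
      rw [hac.integral_deriv_eq_sub]
      simp [hu, ← map_sub, hφv]
    rw [e, ← integral_const_mul, ← intervalIntegral.integral_of_le zero_le_one]
    refine (le_abs_self _).trans ?_
    rw [← Real.norm_eq_abs]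
    refine intervalIntegral.norm_integral_le_of_norm_le zero_le_one ?_ ?_
    · filter_upwards [ae_imp_of_ae_restrict hd] with t ht h1
      have hl : HasDerivAt (fun t : ℝ => x + t • h) h t := by
        simpa using ((hasDerivAt_id t).smul_const h).const_add x
      have hdu : HasDerivAt u (φ (fderiv ℝ f (x + t • h) h)) t :=
        φ.hasFDerivAt.comp_hasDerivAt t ((ht h1).hasFDerivAt.comp_hasDerivAt t hl)
      rw [hdu.deriv, mul_comm]
      exact ((φ.le_of_opNorm_le hφ _).trans_eq (one_mul _)).trans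
        ((fderiv ℝ f (x + t • h)).le_opNorm h)
    · rw [intervalIntegrable_iff_integrableOn_Ioc_of_le zero_le_one]
      exact (hD.integrable (by norm_num)).const_mul _
  have h2 := CompactAux.sq_integral_le hD
  have h1 : ν.real Set.univ = 1 := by simp [hν, Measure.real]
  rw [h1, one_mul, Real.norm_eq_abs, sq_abs] at h2
  simp only [norm_norm] at h2
  calc _ ≤ (‖h‖ * ∫ t, ‖fderiv ℝ f (x + t • h)‖ ∂ν) ^ 2 :=
        pow_le_pow_left₀ (norm_nonneg _) hle 2
    _ ≤ _ := by rw [mul_pow]; exact mul_le_mul_of_nonneg_left h2 (sq_nonneg _)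

theorem translate_le : TranslateStmt := by
  intro E F _ _ _ _ _ μ _ _ _ _ f K hf hc h
  have : CompleteSpace F := FiniteDimensional.complete ℝ F
  set ν : Measure ℝ := volume.restrict (Set.Ioc 0 1) with hν
  have : IsFiniteMeasure ν := ⟨by simp [hν]⟩
  have hDm : Measurable fun x => ‖fderiv ℝ f x‖ := (measurable_fderiv ℝ f).norm
  have hdiff : ∀ᵐ x ∂μ, ∀ᵐ t ∂ν, DifferentiableAt ℝ f (x + t • h) := by
    rw [Measure.ae_ae_comm]
    · exact ae_of_all _ fun t =>
        (measurePreserving_add_right μ (t • h)).quasiMeasurePreserving.ae hf.ae_differentiableAt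
    · exact (measurableSet_of_differentiableAt ℝ f).preimage (by fun_prop)
  have hmp : Measurable fun p : E × ℝ => ENNReal.ofReal (‖fderiv ℝ f (p.1 + p.2 • h)‖ ^ 2) :=
    ((hDm.comp (by fun_prop)).pow_const 2).ennreal_ofReal
  have key : ∫⁻ x, ENNReal.ofReal (‖f (x + h) - f x‖ ^ 2) ∂μ ≤
      ENNReal.ofReal (‖h‖ ^ 2) * ∫⁻ x, ENNReal.ofReal (‖fderiv ℝ f x‖ ^ 2) ∂μ := by
    calc _ ≤ ∫⁻ x, ENNReal.ofReal (‖h‖ ^ 2) *
          ∫⁻ t, ENNReal.ofReal (‖fderiv ℝ f (x + t • h)‖ ^ 2) ∂ν ∂μ := by
          refine lintegral_mono_ae (hdiff.mono fun x hx => ?_)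
          rw [← ofReal_integral_eq_lintegral_ofReal ?_ (Eventually.of_forall fun _ => sq_nonneg _),
            ← ENNReal.ofReal_mul (sq_nonneg _)]
          · exact ENNReal.ofReal_le_ofReal (segment_sq_le hf hx)
          · refine MemLp.integrable_sq (MemLp.of_bound ?_ K (Eventually.of_forall fun t => ?_))
            · exact (hDm.comp (by fun_prop)).aestronglyMeasurable
            · rw [norm_norm]; exact norm_fderiv_le_of_lipschitz ℝ hf
      _ = _ := by
          rw [lintegral_const_mul' _ _ ENNReal.ofReal_ne_top,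
            lintegral_lintegral_swap hmp.aemeasurable]
          simp only [lintegral_add_right_eq_self (μ := μ)
            (fun x => ENNReal.ofReal (‖fderiv ℝ f x‖ ^ 2))]
          simp [hν]
  have hiD : Integrable (fun x => ‖fderiv ℝ f x‖ ^ 2) μ := by
    have hs : Function.support (fun x => ‖fderiv ℝ f x‖) ⊆ tsupport f := fun x hx => by
      by_contra hn
      exact hx (by simp [fderiv_of_notMem_tsupport ℝ hn])
    have : IsFiniteMeasure (μ.restrict (tsupport f)) := ⟨by simpa using hc.measure_lt_top⟩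
    have m : MemLp (fun x => ‖fderiv ℝ f x‖) 2 (μ.restrict (tsupport f)) :=
      MemLp.of_bound hDm.aestronglyMeasurable K (Eventually.of_forall fun t => by
        rw [norm_norm]; exact norm_fderiv_le_of_lipschitz ℝ hf)
    exact (integrableOn_iff_integrable_of_support_subset fun x hx => hs
      (fun e => hx (by simp [e]))).1 m.integrable_sq
  have hiL : Integrable (fun x => ‖f (x + h) - f x‖ ^ 2) μ :=
    (((hf.continuous.comp (continuous_id.add continuous_const)).memLp_of_hasCompactSupport
      (hc.comp_homeomorph (Homeomorph.addRight h))).sub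
      (hf.continuous.memLp_of_hasCompactSupport hc)).integrable_norm_pow two_ne_zero
  rw [← ENNReal.ofReal_le_ofReal_iff (by positivity), ENNReal.ofReal_mul (sq_nonneg _),
    ofReal_integral_eq_lintegral_ofReal hiL (Eventually.of_forall fun _ => sq_nonneg _),
    ofReal_integral_eq_lintegral_ofReal hiD (Eventually.of_forall fun _ => sq_nonneg _)]
  exact key

end Vale.Agent.P363
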